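import Mathlib
import Vale.Agent.P027.R2.H124.KDio

/-! The data used by the reading formula over a number field. -/

namespace Vale.Agent.P027.T3

open Vale.Agent.P027 MvPolynomial Module

/-- the quotient that detects powers and products -/
def tauQ {K : Type} [Field K] (β : K) (i : ℕ) : K := ((β ^ 2) ^ i - 1) / ((β ^ 2) ^ i + 1)

/-- The data used by the reading formula: `α` generates the group of coded numbers, `Mem t z` says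
that `t` certifies that `z` is a power of `α`, `Ord` is the valuation ring of a place above `p`,
`T` is the norm test, `O` the ring of `p`-integers, `CPK` the common prime predicate. -/
structure RD (K : Type) [Field K] [Algebra ℚ K] where
  n : ℕ
  b : Basis (Fin n) ℚ K
  p : ℕ
  hp : p.Prime
  α : K
  hα : α ≠ 0
  Adm : K → Prop
  Mem : K → K → Prop
  mem_sound : ∀ t z, Adm t → Mem t z → ∃ j : ℤ, z = α ^ j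
  mem_complete : ∀ j : ℤ, ∃ t, (∀ i, ∃ (x : ℤ) (m : ℕ), b.repr t i = x / p ^ m) ∧ Mem t (α ^ j)
  dio_mem : ∀ {f g : (ℕ → ℚ) → K}, FnK b f → FnK b g → Dio (fun v => Mem (f v) (g v))
  Ord : K → Prop
  a0 : ℕ
  ha0 : 1 ≤ a0
  ord_iff : ∀ (j : ℤ) (a : ℕ), Ord (α ^ j * ((p : K) ^ a)⁻¹) ↔ (a : ℤ) ≤ a0 * j
  dio_ord : ∀ {f : (ℕ → ℚ) → K}, FnK b f → Dio (fun v => Ord (f v))
  β : K
  hβ : β ≠ 0
  hβ1 : ∀ m : ℕ, 1 ≤ m → (β ^ 2) ^ m ≠ 1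
  Bt : K → K
  bt_pow : ∀ j : ℤ, Bt (α ^ j) = β ^ j
  fn_bt : ∀ {f : (ℕ → ℚ) → K}, FnK b f → FnK b (fun v => Bt (f v))
  T : K → Prop
  dio_T : ∀ {f : (ℕ → ℚ) → K}, FnK b f → Dio (fun v => T (f v))
  e : ℕ
  u0 : ℕ
  hu0 : 1 ≤ u0
  he : 1 ≤ e
  pow_sound : ∀ i, 1 ≤ i → T (tauQ β i / tauQ β (p ^ e)) → ∃ w, i = p ^ w
  pow_complete : ∀ w, e ≤ w → T (tauQ β (p ^ w) / tauQ β (p ^ e))
  prod_iff : ∀ w v u, u0 ∣ w → u0 ∣ v → u0 ∣ u → e ≤ w → 1 ≤ v → 1 ≤ u →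
    (T (tauQ β (p ^ (w + u) - p ^ w) / tauQ β (p ^ e * (p ^ v - 1))) ↔ u = v)
  O : Subring K
  hβO : β ∈ O
  hβO' : β⁻¹ ∈ O
  Good : ℕ → Prop
  good_prime : ∀ q, Good q → q.Prime ∧ q ≠ p
  CPK : List K → Prop
  cpk_sound : ∀ L, CPK L → ∃ q, Good q ∧ ∃ Q : Ideal O, Q.IsPrime ∧ (q : O) ∈ Q ∧
    ∀ x : O, (x : K) ∈ L → x ∈ Q
  cpk_complete : ∀ q, Good q → ∀ Q : Ideal O, Q.IsPrime → (q : O) ∈ Q → ∀ L,
    (∀ x ∈ L, ∃ y ∈ Q, ((y : O) : K) = x) → CPK L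
  dio_cpk : ∀ {L : List ((ℕ → ℚ) → K)}, (∀ f ∈ L, FnK b f) →
    Dio (fun v => CPK (L.map (fun f => f v)))
  capt : ∀ w, ∃ q, Good q ∧ ∃ Q : Ideal O, Q.IsPrime ∧ (q : O) ∈ Q ∧ ∃ y ∈ Q,
    ((y : O) : K) * (β ^ p ^ w - (β ^ p ^ w)⁻¹) = (β ^ p ^ w) ^ p - ((β ^ p ^ w) ^ p)⁻¹
  frob : ∀ q, Good q → ∀ Q : Ideal O, Q.IsPrime → (q : O) ∈ Q → ∃ f, 1 ≤ f ∧ f ≤ n ∧
    ∀ x : O, x ^ (q ^ f) - x ∈ Q

end Vale.Agent.P027.T3
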