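import Mathlib

/-! Reading of exponents modulo a prime ideal. -/

namespace Vale.Agent.P027.T3

open Finset

variable {O : Type} [CommRing O] {Q : Ideal O} [hQ : Q.IsPrime]

lemma int_dvd {q : ℕ} (hq : q.Prime) (hqQ : (q : O) ∈ Q) (z : ℤ) (hz : (z : O) ∈ Q) :
    (q : ℤ) ∣ z := by
  by_contra h
  have hc : IsCoprime (q : ℤ) z :=
    (Prime.coprime_iff_not_dvd (Nat.prime_iff_prime_int.1 hq)).2 h
  obtain ⟨a, b, hab⟩ := hc
  have : (1 : O) ∈ Q := by
    have e : (1 : O) = (a : O) * (q : O) + (b : O) * (z : O) := by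
      have := congrArg (Int.cast : ℤ → O) hab
      push_cast at this
      exact this.symm
    rw [e]
    exact Q.add_mem (Q.mul_mem_left _ hqQ) (Q.mul_mem_left _ hz)
  exact hQ.ne_top ((Ideal.eq_top_iff_one _).2 this)

lemma order_eq {B : O} {p q w : ℕ} (hp : p.Prime) (hq : q.Prime) (hqp : q ≠ p)
    (hqQ : (q : O) ∈ Q) (h : ∑ i ∈ range p, (B ^ p ^ w) ^ i ∈ Q) :
    orderOf (Ideal.Quotient.mk Q B) = p ^ (w + 1) := by
  have := Fact.mk hp
  obtain ⟨y, hy⟩ : ∃ y, y = (Ideal.Quotient.mk Q B) ^ p ^ w := ⟨_, rfl⟩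
  have hs : ∑ i ∈ range p, y ^ i = 0 := by
    rw [← Ideal.Quotient.eq_zero_iff_mem, map_sum] at h
    rw [← h, hy]
    simp
  apply orderOf_eq_prime_pow
  · intro h1
    rw [← hy] at h1
    rw [h1] at hs
    simp only [one_pow, sum_const, card_range, nsmul_eq_mul, mul_one] at hs
    have h2 : ((p : ℤ) : O) ∈ Q := by
      rw [← Ideal.Quotient.eq_zero_iff_mem]
      simpa using hs
    have h3 := int_dvd hq hqQ _ h2
    have h4 : q ∣ p := by exact_mod_cast h3
    exact hqp ((Nat.prime_dvd_prime_iff_eq hq hp).1 h4)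
  · have h1 := geom_sum_mul y p
    rw [hs, zero_mul] at h1
    rw [pow_succ, pow_mul, ← hy]
    exact (sub_eq_zero.1 h1.symm)

lemma geom_cong {B : O} {N : ℕ} (h : (Ideal.Quotient.mk Q B) ^ N = 1) (x : ℕ) :
    Ideal.Quotient.mk Q (∑ i ∈ range x, (B ^ N) ^ i) = x := by
  rw [map_sum]
  have : ∀ i ∈ range x, Ideal.Quotient.mk Q ((B ^ N) ^ i) = 1 := by
    intro i _
    rw [map_pow, map_pow, h, one_pow]
  rw [sum_congr rfl this]
  simp

lemma order_lt {B : O} {q f : ℕ} (hq : q.Prime) (hf : 1 ≤ f)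
    (hpos : 0 < orderOf (Ideal.Quotient.mk Q B)) (h : B ^ (q ^ f) - B ∈ Q) :
    orderOf (Ideal.Quotient.mk Q B) < q ^ f := by
  obtain ⟨x, hx⟩ : ∃ x, x = Ideal.Quotient.mk Q B := ⟨_, rfl⟩
  rw [← hx] at hpos ⊢
  have h1 : x ^ (q ^ f) = x := by
    rw [← Ideal.Quotient.eq_zero_iff_mem, map_sub, map_pow, ← hx] at h
    exact sub_eq_zero.1 h
  have hx0 : x ≠ 0 := by
    intro h0
    have h2 := pow_orderOf_eq_one x
    rw [h0, zero_pow (by rw [← h0]; omega)] at h2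
    exact zero_ne_one h2
  have h2 : 2 ≤ q ^ f := le_trans hq.two_le (Nat.le_self_pow (by omega) q)
  have h3 : x ^ (q ^ f - 1) = 1 := by
    have h4 : x ^ (q ^ f - 1) * x = 1 * x := by
      rw [← pow_succ, one_mul, Nat.sub_add_cancel (by omega)]
      exact h1
    exact mul_right_cancel₀ hx0 h4
  have h5 := orderOf_le_of_pow_eq_one (by omega) h3
  omega

end Vale.Agent.P027.T3
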