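import Mathlib
import Vale.Agent.P027.R3.H124.Abs
import Vale.Agent.P027.R3.H124.Loc
import Vale.Agent.P027.R2.H18.Rad

/-! The reading formula over a number field: definition and soundness. -/

namespace Vale.Agent.P027.T3

open Vale.Agent.P027 MvPolynomial Module

variable {K : Type} [Field K] [Algebra ℚ K] (D : RD K)

namespace RD

/-- the quotient as a function of the point -/
def tq (z : K) : K := (D.Bt z ^ 2 - 1) / (D.Bt z ^ 2 + 1)

/-- the product test -/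
def ProdT (z₁ z₂ z₃ : K) : Prop :=
  D.T (D.tq (z₃ / z₁) / D.tq (z₂ ^ D.p ^ D.e / D.α ^ D.p ^ D.e))

/-- the element divisible by the captured place -/
def kap (z : K) : K := (D.Bt z ^ (D.p - 1))⁻¹ * ∑ i ∈ Finset.range D.p, (D.Bt z ^ 2) ^ i

/-- the entries of the common prime predicate -/
noncomputable def ents {k m : ℕ} (P : MvPolynomial (Fin k ⊕ Fin m) ℤ) (κ : ℕ) (a : Fin k → K)
    (z : ℕ → K) : List K :=
  [D.kap (z κ), aeval (Sum.elim a (fun j : Fin m =>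
      (D.Bt (z (κ + 2 + j)) ^ 2 - 1) / ((D.Bt (z κ) ^ 2) ^ D.p - 1))) P] ++
  (List.range m).map (fun j => D.Bt (z (κ + 2 + j)) ^ 2 - 1)

/-- the reading formula -/
def Read {k m : ℕ} (P : MvPolynomial (Fin k ⊕ Fin m) ℤ) (κ c₀ : ℕ) (a c : Fin k → K)
    (t z s x : ℕ → K) : Prop :=
  (∀ i < κ + 2 + m, D.Mem (t i) (z i)) ∧
  (∀ i < κ + 2, D.Mem (s i) (x i) ∧ z i = D.α * x i ^ (D.p ^ D.u0 - 1)) ∧
  (∀ i < κ + 2, D.Ord (z i / D.α ^ D.p ^ D.e) ∧ D.T (D.tq (z i) / tauQ D.β (D.p ^ D.e))) ∧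
  (∀ i < κ, D.Ord (z (i + 1) / (D.α * z i)) ∧ D.ProdT (z i) (z i) (z (i + 1))) ∧
  (D.Ord (z (κ + 1) / (D.α * z κ)) ∧ D.ProdT (z κ) (z 0) (z (κ + 1))) ∧
  D.Ord (z 0 / D.α ^ c₀) ∧
  (∀ i, D.Ord (z 0 * (c i)⁻¹)) ∧
  (∀ j < m, D.Ord (z (κ + 2 + j)) ∧ D.Ord (z (κ + 1) ^ D.p / z (κ + 2 + j))) ∧
  D.CPK (D.ents P κ a z)

lemma ord_zpow (j : ℤ) : D.Ord (D.α ^ j) ↔ 0 ≤ j := by
  have h := D.ord_iff j 0
  rw [pow_zero, inv_one, mul_one] at h
  rw [h]
  have ha := D.ha0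
  constructor
  · intro h1
    push_cast at h1
    by_contra hcon
    have : (D.a0 : ℤ) * j < 0 := mul_neg_of_pos_of_neg (by exact_mod_cast ha) (by omega)
    omega
  · intro h1
    push_cast
    positivity

lemma zpow_inj {i j : ℤ} (h : D.α ^ i = D.α ^ j) : i = j := by
  have h1 : D.α ^ (i - j) = 1 := by
    rw [zpow_sub₀ D.hα, h, div_self (zpow_ne_zero _ D.hα)]
  have h2 : D.α ^ (j - i) = 1 := by
    rw [zpow_sub₀ D.hα, h, div_self (zpow_ne_zero _ D.hα)]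
  have h0 : D.Ord (D.α ^ (0 : ℤ)) := (D.ord_zpow 0).2 le_rfl
  rw [zpow_zero] at h0
  have h3 := (D.ord_zpow (i - j)).1 (h1 ▸ h0)
  have h4 := (D.ord_zpow (j - i)).1 (h2 ▸ h0)
  omega

lemma bt_nat (i : ℕ) : D.Bt (D.α ^ (i : ℤ)) = D.β ^ i := by
  rw [D.bt_pow, zpow_natCast]

lemma tq_nat (i : ℕ) : D.tq (D.α ^ (i : ℤ)) = tauQ D.β i := by
  unfold tq tauQ
  rw [D.bt_nat, ← pow_mul, ← pow_mul, mul_comm i 2]

/-- test for powers of `p` on points -/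
lemma pow_test {i : ℕ} (hi : 1 ≤ i) (h : D.T (D.tq (D.α ^ (i : ℤ)) / tauQ D.β (D.p ^ D.e))) :
    ∃ w, i = D.p ^ w := by
  rw [D.tq_nat] at h
  exact D.pow_sound i hi h

lemma prodT_iff {w v u : ℕ} (hw : D.u0 ∣ w) (hv : D.u0 ∣ v) (hu : D.u0 ∣ u) (he : D.e ≤ w)
    (h1v : 1 ≤ v) (h1u : 1 ≤ u) : D.ProdT (D.α ^ ((D.p ^ w : ℕ) : ℤ)) (D.α ^ ((D.p ^ v : ℕ) : ℤ))
      (D.α ^ ((D.p ^ (w + u) : ℕ) : ℤ)) ↔ u = v := by
  rw [← D.prod_iff w v u hw hv hu he h1v h1u]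
  unfold ProdT
  have hle : D.p ^ w ≤ D.p ^ (w + u) := Nat.pow_le_pow_right D.hp.pos (by omega)
  have e1 : D.α ^ ((D.p ^ (w + u) : ℕ) : ℤ) / D.α ^ ((D.p ^ w : ℕ) : ℤ) =
      D.α ^ ((D.p ^ (w + u) - D.p ^ w : ℕ) : ℤ) := by
    rw [← zpow_sub₀ D.hα, Nat.cast_sub hle]
  have e2 : (D.α ^ ((D.p ^ v : ℕ) : ℤ)) ^ D.p ^ D.e / D.α ^ D.p ^ D.e =
      D.α ^ ((D.p ^ D.e * (D.p ^ v - 1) : ℕ) : ℤ) := by
    have h1 : 1 ≤ D.p ^ v := Nat.one_le_pow _ _ D.hp.pos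
    rw [← zpow_natCast, ← zpow_mul, ← zpow_natCast D.α (D.p ^ D.e), ← zpow_sub₀ D.hα]
    congr 1
    push_cast [Nat.cast_sub h1]
    ring
  rw [e1, e2, D.tq_nat, D.tq_nat]

theorem read_sound {k m : ℕ} (P : MvPolynomial (Fin k ⊕ Fin m) ℤ) {C d κ c₀ : ℕ}
    (hCd : ∀ g : ℕ, 1 ≤ g → ∀ v : Fin k ⊕ Fin m → ℤ, (∀ i, |v i| ≤ g) → |eval v P| ≤ C * g ^ d)
    (hκ : D.n * (d + 1) ≤ 2 ^ κ) (hc₀ : C * D.a0 ^ d + 1 ≤ c₀)
    (a : Fin k → ℕ) (t z s x : ℕ → K) (ht : ∀ i < κ + 2 + m, D.Adm (t i))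
    (hs : ∀ i < κ + 2, D.Adm (s i))
    (h : D.Read P κ c₀ (fun i => ((a i : ℕ) : K)) (fun i => (D.p : K) ^ a i) t z s x) :
    ∃ X : Fin m → ℕ, eval (Sum.elim (fun i => (a i : ℤ)) (fun j => (X j : ℤ))) P = 0 := by
  obtain ⟨hmem, hcong, hpow, hchain, ⟨hB1, hB2⟩, hc, hca, hY, hCP⟩ := h
  have hp2 := D.hp.two_le
  -- exponents
  have hE : ∀ i, ∃ E : ℤ, i < κ + 2 + m → z i = D.α ^ E := by
    intro i
    by_cases hi : i < κ + 2 + m
    · obtain ⟨j, hj⟩ := D.mem_sound _ _ (ht i hi) (hmem i hi)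
      exact ⟨j, fun _ => hj⟩
    · exact ⟨0, fun h => absurd h hi⟩
  choose E hE using hE
  -- exponents of the ladder
  have hw : ∀ i, ∃ w : ℕ, i < κ + 2 → D.u0 ∣ w ∧ D.e ≤ w ∧ z i = D.α ^ ((D.p ^ w : ℕ) : ℤ) := by
    intro i
    by_cases hi : i < κ + 2
    · have hzi := hE i (by omega)
      obtain ⟨h1, h2⟩ := hpow i hi
      rw [hzi, ← zpow_natCast, ← zpow_sub₀ D.hα, D.ord_zpow] at h1
      have hpe : 1 ≤ D.p ^ D.e := Nat.one_le_pow _ _ D.hp.pos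
      obtain ⟨N, hN⟩ : ∃ N : ℕ, E i = N := ⟨(E i).toNat, by omega⟩
      rw [hzi, hN] at h2
      have hN1 : 1 ≤ N := by omega
      obtain ⟨w, hw⟩ := D.pow_test hN1 h2
      refine ⟨w, fun _ => ⟨?_, ?_, ?_⟩⟩
      · obtain ⟨h3, h4⟩ := hcong i hi
        obtain ⟨j, hj⟩ := D.mem_sound _ _ (hs i hi) h3
        rw [hzi, hj, ← zpow_natCast, ← zpow_mul, mul_comm D.α, ← zpow_add_one₀ D.hα] at h4
        have h5 := D.zpow_inj h4
        rw [hN, hw] at h5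
        rw [← TD.dvd_exp_iff hp2, ← Int.natCast_dvd_natCast]
        refine ⟨j, ?_⟩
        have h6 : 1 ≤ D.p ^ w := Nat.one_le_pow _ _ D.hp.pos
        rw [Nat.cast_sub h6]
        push_cast at h5 ⊢
        linarith
      · have h3 : D.p ^ D.e ≤ D.p ^ w := by
          rw [← hw]
          omega
        exact (Nat.pow_le_pow_iff_right (by omega)).1 h3
      · rw [hzi, hN, hw]
    · exact ⟨0, fun h => absurd h hi⟩
  choose w hw using hw
  have hlt : ∀ {i j : ℕ}, i < κ + 2 → j < κ + 2 → D.Ord (z j / (D.α * z i)) →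
      ∃ u, 1 ≤ u ∧ w j = w i + u := by
    intro i j hi hj h
    rw [(hw i hi).2.2, (hw j hj).2.2, mul_comm D.α, ← zpow_add_one₀ D.hα, ← zpow_sub₀ D.hα,
      D.ord_zpow] at h
    have h1 : D.p ^ w i < D.p ^ w j := by
      have : ((D.p ^ w i : ℕ) : ℤ) < ((D.p ^ w j : ℕ) : ℤ) := by linarith
      exact_mod_cast this
    have h2 := (Nat.pow_lt_pow_iff_right (by omega)).1 h1
    exact ⟨w j - w i, by omega, by omega⟩
  have hchk : ∀ {i l j : ℕ}, i < κ + 2 → l < κ + 2 → j < κ + 2 → 1 ≤ w l →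
      D.Ord (z j / (D.α * z i)) → D.ProdT (z i) (z l) (z j) → w j = w i + w l := by
    intro i l j hi hl hj h1 h2 h3
    obtain ⟨u, hu1, hu⟩ := hlt hi hj h2
    have hdu : D.u0 ∣ u := by
      have h4 := (hw j hj).1
      rw [hu] at h4
      exact (Nat.dvd_add_right (hw i hi).1).1 h4
    have h5 := (hw j hj).2.2
    rw [hu] at h5
    rw [(hw i hi).2.2, (hw l hl).2.2, h5] at h3
    have := (D.prodT_iff (hw i hi).1 (hw l hl).1 hdu (hw i hi).2.1 h1 hu1).1 h3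
    omega
  have hwpos : ∀ i < κ + 2, 1 ≤ w i := fun i hi => le_trans D.he (hw i hi).2.1
  have hstep : ∀ i < κ, w (i + 1) = 2 * w i := by
    intro i hi
    have := hchk (i := i) (l := i) (j := i + 1) (by omega) (by omega) (by omega)
      (hwpos i (by omega)) (hchain i hi).1 (hchain i hi).2
    omega
  have hwj : ∀ j ≤ κ, w j = 2 ^ j * w 0 := by
    intro j
    induction j with
    | zero => intro _; simp
    | succ j ih =>
      intro hj
      rw [hstep j (by omega), ih (by omega), pow_succ]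
      ring
  have hwB : w (κ + 1) = w κ + w 0 := hchk (i := κ) (l := 0) (j := κ + 1) (by omega) (by omega)
    (by omega) (hwpos 0 (by omega)) hB1 hB2
  obtain ⟨γ, hγ⟩ : ∃ γ : ℕ, γ = D.p ^ w 0 := ⟨_, rfl⟩
  obtain ⟨h, hh⟩ : ∃ h : ℕ, h = D.p ^ w κ := ⟨_, rfl⟩
  have hhγ : h = γ ^ (2 ^ κ) := by
    rw [hh, hγ, hwj κ le_rfl, ← pow_mul]
    ring_nf
  have hBγ : D.p ^ w (κ + 1) = h * γ := by
    rw [hwB, hh, hγ, ← pow_add]
  have hγpos : 1 ≤ γ := by rw [hγ]; exact Nat.one_le_pow _ _ D.hp.pos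
  have hhpos : 1 ≤ h := by rw [hh]; exact Nat.one_le_pow _ _ D.hp.pos
  have hz0 : z 0 = D.α ^ (γ : ℤ) := by rw [hγ]; exact (hw 0 (by omega)).2.2
  have hzκ : z κ = D.α ^ (h : ℤ) := by rw [hh]; exact (hw κ (by omega)).2.2
  have hzB : z (κ + 1) = D.α ^ ((h * γ : ℕ) : ℤ) := by
    rw [← hBγ]; exact (hw (κ + 1) (by omega)).2.2
  -- bounds for the parameters
  have hγC : c₀ ≤ γ := by
    rw [hz0, ← zpow_natCast, ← zpow_sub₀ D.hα, D.ord_zpow] at hc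
    omega
  have haγ : ∀ i, a i ≤ D.a0 * γ := by
    intro i
    have h1 := hca i
    rw [hz0, D.ord_iff] at h1
    exact_mod_cast h1
  -- the captured place
  obtain ⟨q, hq, Q, hQp, hqQ, hall⟩ := D.cpk_sound _ hCP
  obtain ⟨hqp, hqne⟩ := D.good_prime q hq
  obtain ⟨u, hu⟩ : ∃ u : D.O, (u : K) = D.β := ⟨⟨D.β, D.hβO⟩, rfl⟩
  obtain ⟨u', hu'⟩ : ∃ u : D.O, (u : K) = D.β⁻¹ := ⟨⟨D.β⁻¹, D.hβO'⟩, rfl⟩
  have huu : u * u' = 1 := by
    apply Subtype.ext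
    push_cast
    rw [hu, hu', mul_inv_cancel₀ D.hβ]
  have hbκ : D.Bt (z κ) = D.β ^ h := by rw [hzκ, D.bt_nat]
  have hsum : ∑ i ∈ Finset.range D.p, ((u ^ 2) ^ D.p ^ w κ) ^ i ∈ Q := by
    have h1 : (u' ^ h) ^ (D.p - 1) * ∑ i ∈ Finset.range D.p, ((u ^ 2) ^ D.p ^ w κ) ^ i ∈ Q := by
      apply hall
      have e1 : (((u' ^ h) ^ (D.p - 1) * ∑ i ∈ Finset.range D.p, ((u ^ 2) ^ D.p ^ w κ) ^ i :
          D.O) : K) = D.kap (z κ) := by
        unfold kap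
        push_cast
        rw [hu, hu', hbκ, ← hh, inv_pow, inv_pow, ← pow_mul D.β 2 h, ← pow_mul D.β h 2,
          mul_comm 2 h]
      rw [e1]
      simp [ents]
    rcases hQp.mem_or_mem h1 with h2 | h2
    · exfalso
      apply hQp.ne_top
      rw [Ideal.eq_top_iff_one]
      have h3 : (u ^ h) ^ (D.p - 1) * (u' ^ h) ^ (D.p - 1) = 1 := by
        rw [← mul_pow, ← mul_pow, huu, one_pow, one_pow]
      rw [← h3]
      exact Q.mul_mem_left _ h2
    · exact h2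
  obtain ⟨B, hB⟩ : ∃ B, B = u ^ 2 := ⟨_, rfl⟩
  rw [← hB] at hsum
  have hBK : (B : K) = D.β ^ 2 := by rw [hB]; push_cast; rw [hu]
  obtain ⟨g, hg⟩ : ∃ g : ℕ, g = D.p ^ (w κ + 1) := ⟨_, rfl⟩
  have hord : orderOf (Ideal.Quotient.mk Q B) = g := by
    rw [hg]; exact order_eq D.hp hqp hqne hqQ hsum
  have hgh : g = D.p * h := by rw [hg, hh, pow_succ, mul_comm]
  have hgpos : 1 ≤ g := by rw [hg]; exact Nat.one_le_pow _ _ D.hp.pos
  have hpow1 : (Ideal.Quotient.mk Q B) ^ g = 1 := by rw [← hord]; exact pow_orderOf_eq_one _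
  -- coded integers
  have hcode : ∀ j : Fin m, ∃ X : ℕ, X ≤ γ ∧ D.Bt (z (κ + 2 + j)) ^ 2 = (D.β ^ 2) ^ (g * X) := by
    intro j
    have hzj := hE (κ + 2 + j) (by omega)
    obtain ⟨h1, h2⟩ := hY j j.2
    rw [hzj, D.ord_zpow] at h1
    obtain ⟨M, hM⟩ : ∃ M : ℕ, E (κ + 2 + j) = M := ⟨(E (κ + 2 + j)).toNat, by omega⟩
    rw [hM] at hzj
    rw [hzj, hzB, ← zpow_natCast, ← zpow_mul, ← zpow_sub₀ D.hα, D.ord_zpow] at h2
    have h3 : B ^ M - 1 ∈ Q := by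
      apply hall
      have e1 : ((B ^ M - 1 : D.O) : K) = D.Bt (z (κ + 2 + j)) ^ 2 - 1 := by
        push_cast
        rw [hBK, hzj, D.bt_nat, ← pow_mul, ← pow_mul, mul_comm]
      rw [e1]
      simp only [ents, List.mem_append, List.mem_map, List.mem_range]
      exact Or.inr ⟨j, j.2, rfl⟩
    have h4 : g ∣ M := by
      rw [← hord]
      apply orderOf_dvd_of_pow_eq_one
      rw [← Ideal.Quotient.eq_zero_iff_mem, map_sub, map_pow, map_one] at h3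
      exact sub_eq_zero.1 h3
    obtain ⟨X, hX⟩ := h4
    refine ⟨X, ?_, ?_⟩
    · have h5 : g * X ≤ g * γ := by
        rw [← hX, hgh]
        have h6 : ((M : ℕ) : ℤ) ≤ ((h * γ : ℕ) : ℤ) * (D.p : ℕ) := by linarith
        have h7 : M ≤ h * γ * D.p := by exact_mod_cast h6
        calc M ≤ h * γ * D.p := h7
          _ = D.p * h * γ := by ring
      exact Nat.le_of_mul_le_mul_left h5 (by omega)
    · rw [hzj, D.bt_nat, ← hX, ← pow_mul, ← pow_mul, mul_comm]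
  choose X hXγ hX using hcode
  refine ⟨X, ?_⟩
  have hcongr : (q : ℤ) ∣ eval (Sum.elim (fun i => (a i : ℤ)) (fun j => (X j : ℤ))) P := by
    let A : Fin k ⊕ Fin m → D.O := Sum.elim (fun i => ((a i : ℕ) : D.O))
      (fun j => ∑ i ∈ Finset.range (X j), (B ^ g) ^ i)
    have h1 : aeval A P ∈ Q := by
      apply hall
      have e1 : ((aeval A P : D.O) : K) = aeval (Sum.elim (fun i => ((a i : ℕ) : K))
          (fun j : Fin m => (D.Bt (z (κ + 2 + j)) ^ 2 - 1) / ((D.Bt (z κ) ^ 2) ^ D.p - 1))) P := by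
        have e2 := comp_aeval_apply (f := A) (φ := D.O.subtype.toIntAlgHom) P
        rw [RingHom.toIntAlgHom_apply] at e2
        rw [show ((aeval A P : D.O) : K) = D.O.subtype (aeval A P) from rfl, e2]
        congr 2
        funext i
        rcases i with i | j
        · simp [A]
        · simp only [A, Sum.elim_inr, RingHom.toIntAlgHom_apply, Subring.coe_subtype]
          push_cast
          have h2 : (D.β ^ 2) ^ g ≠ 1 := D.hβ1 g hgpos
          have h3 : (D.Bt (z κ) ^ 2) ^ D.p = (D.β ^ 2) ^ g := by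
            rw [hbκ, hgh, ← pow_mul, ← pow_mul, ← pow_mul]
            congr 1
            ring
          rw [hBK, geom_sum_eq h2, hX j, h3, pow_mul]
      rw [e1]
      simp [ents]
    have h2 : ((eval (Sum.elim (fun i => (a i : ℤ)) (fun j => (X j : ℤ))) P : ℤ) :
        D.O ⧸ Q) = 0 := by
      rw [← T2.aeval_intCast, ← Ideal.Quotient.eq_zero_iff_mem.2 h1]
      have e2 := comp_aeval_apply (f := A) (φ := (Ideal.Quotient.mk Q).toIntAlgHom) P
      rw [RingHom.toIntAlgHom_apply] at e2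
      rw [e2]
      congr 2
      funext i
      rcases i with i | j
      · simp [A]
      · simp only [A, Sum.elim_inr, RingHom.toIntAlgHom_apply]
        rw [geom_cong hpow1]
        push_cast
        rfl
    apply int_dvd hqp hqQ
    rw [← Ideal.Quotient.eq_zero_iff_mem, map_intCast]
    exact h2
  -- the bound
  have hb := hCd (D.a0 * γ) (Nat.mul_pos D.ha0 hγpos)
    (Sum.elim (fun i => (a i : ℤ)) (fun j => (X j : ℤ))) (by
      intro i
      rcases i with i | i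
      · simp only [Sum.elim_inl]
        rw [abs_of_nonneg (by positivity)]
        exact_mod_cast haγ i
      · simp only [Sum.elim_inr]
        rw [abs_of_nonneg (by positivity)]
        have h1 : X i ≤ D.a0 * γ := le_trans (hXγ i) (Nat.le_mul_of_pos_left _ D.ha0)
        exact_mod_cast h1)
  obtain ⟨f, hf1, hfn, hfrob⟩ := D.frob q hq Q hQp hqQ
  have hlt1 : g < q ^ f := by
    rw [← hord]
    exact order_lt hqp hf1 (by rw [hord]; omega) (hfrob B)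
  have hlt2 : C * (D.a0 * γ) ^ d < q := by
    have h1 : C * (D.a0 * γ) ^ d < γ ^ (d + 1) := by
      calc C * (D.a0 * γ) ^ d = (C * D.a0 ^ d) * γ ^ d := by rw [mul_pow]; ring
        _ < γ * γ ^ d := Nat.mul_lt_mul_of_pos_right (by omega) (by positivity)
        _ = γ ^ (d + 1) := by rw [pow_succ, mul_comm]
    have h2 : γ ^ (d + 1) < q := by
      by_contra hcon
      have h3 : q ≤ γ ^ (d + 1) := by omega
      have h4 : q ^ D.n ≤ γ ^ (2 ^ κ) := by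
        calc q ^ D.n ≤ (γ ^ (d + 1)) ^ D.n := Nat.pow_le_pow_left h3 _
          _ = γ ^ (D.n * (d + 1)) := by rw [← pow_mul]; ring_nf
          _ ≤ γ ^ (2 ^ κ) := Nat.pow_le_pow_right hγpos hκ
      have h5 : q ^ f ≤ q ^ D.n := Nat.pow_le_pow_right hqp.pos hfn
      have h6 : h ≤ g := by rw [hgh]; exact Nat.le_mul_of_pos_left _ D.hp.pos
      rw [← hhγ] at h4
      omega
    omega
  apply Int.eq_zero_of_abs_lt_dvd hcongr
  calc |eval (Sum.elim (fun i => (a i : ℤ)) (fun j => (X j : ℤ))) P|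
      ≤ C * ((D.a0 * γ : ℕ) : ℤ) ^ d := hb
    _ < q := by exact_mod_cast hlt2

end RD

end Vale.Agent.P027.T3
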