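import Vale.Agent.P027.R3.H124.SpecX

set_option linter.all false

/-! The reading formula with rational inputs: completeness. -/

namespace Vale.Agent.P027.T3

open Vale.Agent.P027 MvPolynomial Module

variable {K : Type} [Field K] [Algebra ℚ K] (D : RD K)

namespace RD

theorem readX_complete : D.ReadXComplete := by
  intro M P κ c₀ k X hkM hP
  have hp2 := D.hp.two_le
  obtain ⟨w, hw⟩ : ∃ w : ℕ, w = D.u0 * (D.e + c₀ + ∑ j ∈ Finset.range M, X j + 1) := ⟨_, rfl⟩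
  have hw_ge : D.e + c₀ + ∑ j ∈ Finset.range M, X j + 1 ≤ w := by
    rw [hw]; exact Nat.le_mul_of_pos_left _ D.hu0
  have hdw : D.u0 ∣ w := ⟨_, hw⟩
  have hwlt : w < D.p ^ w := Nat.lt_pow_self (by omega)
  have hxw : ∀ j < M, X j < D.p ^ w := by
    intro j hj
    have := Finset.single_le_sum (f := X) (fun i _ => Nat.zero_le _) (Finset.mem_range.2 hj)
    omega
  obtain ⟨W, hW⟩ : ∃ W : ℕ, W = 2 ^ κ * w := ⟨_, rfl⟩
  have hWw : w ≤ W := by
    rw [hW]; exact Nat.le_mul_of_pos_left _ (by positivity)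
  have hdW : D.u0 ∣ W := by rw [hW]; exact hdw.mul_left _
  obtain ⟨h, hh⟩ : ∃ h : ℕ, h = D.p ^ W := ⟨_, rfl⟩
  have hhpos : 1 ≤ h := by rw [hh]; exact Nat.one_le_pow _ _ D.hp.pos
  obtain ⟨g, hg⟩ : ∃ g : ℕ, g = D.p ^ (W + 1) := ⟨_, rfl⟩
  have hgh : g = D.p * h := by rw [hg, hh, pow_succ, mul_comm]
  have hgpos : 1 ≤ g := by rw [hg]; exact Nat.one_le_pow _ _ D.hp.pos
  obtain ⟨E, hE⟩ : ∃ E, E = D.expE w κ g X := ⟨_, rfl⟩
  have e1 : ∀ i < κ + 1, E i = D.p ^ (2 ^ i * w) := by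
    intro i hi; rw [hE]; simp [expE, hi]
  have e0 : E 0 = D.p ^ w := by rw [e1 0 (by omega)]; simp
  have eκ : E κ = h := by rw [e1 κ (by omega), hh, hW]
  have eB : E (κ + 1) = D.p ^ (W + w) := by
    rw [hE, hW]
    simp [expE]
  have e4 : ∀ j, E (κ + 2 + j) = g * X j := by
    intro j
    rw [hE]
    unfold expE
    rw [if_neg (by omega), if_neg (by omega)]
    congr 2
    omega
  have key : ∀ i < κ + 2, ∃ v, D.u0 ∣ v ∧ D.e ≤ v ∧ E i = D.p ^ v := by
    intro i hi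
    by_cases hi' : i < κ + 1
    · refine ⟨2 ^ i * w, hdw.mul_left _, ?_, e1 i hi'⟩
      have : w ≤ 2 ^ i * w := Nat.le_mul_of_pos_left _ (by positivity)
      omega
    · have : i = κ + 1 := by omega
      subst this
      exact ⟨W + w, dvd_add hdW hdw, by omega, eB⟩
  obtain ⟨J, hJ⟩ : ∃ J : ℕ → ℕ, ∀ i, J i = (E i - 1) / (D.p ^ D.u0 - 1) := ⟨_, fun _ => rfl⟩
  have hJE : ∀ i < κ + 2, E i = 1 + J i * (D.p ^ D.u0 - 1) := by
    intro i hi
    obtain ⟨v, hv1, -, hv⟩ := key i hi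
    have h1 : D.p ^ D.u0 - 1 ∣ E i - 1 := by rw [hv]; exact (TD.dvd_exp_iff hp2).2 hv1
    rw [hJ, Nat.div_mul_cancel h1]
    have : 1 ≤ E i := by rw [hv]; exact Nat.one_le_pow _ _ D.hp.pos
    omega
  -- the captured place
  obtain ⟨q, hq, Q, hQp, hqQ, r, hrQ, hr⟩ := D.capt W
  obtain ⟨hqp, hqne⟩ := D.good_prime q hq
  obtain ⟨u, hu⟩ : ∃ u : D.O, (u : K) = D.β := ⟨⟨D.β, D.hβO⟩, rfl⟩
  obtain ⟨u', hu'⟩ : ∃ u : D.O, (u : K) = D.β⁻¹ := ⟨⟨D.β⁻¹, D.hβO'⟩, rfl⟩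
  have huu : u * u' = 1 := by
    apply Subtype.ext
    push_cast
    rw [hu, hu', mul_inv_cancel₀ D.hβ]
  rw [← hh] at hr
  have hkap : D.kap (D.α ^ (h : ℤ)) = r := by
    have hX0 : D.β ^ h ≠ 0 := pow_ne_zero _ D.hβ
    have hX2 : (D.β ^ h) ^ 2 ≠ 1 := by
      rw [← pow_mul, mul_comm, pow_mul]; exact D.hβ1 h hhpos
    have hX3 : D.β ^ h - (D.β ^ h)⁻¹ ≠ 0 := by
      intro h0
      apply hX2
      have h1 := sub_eq_zero.1 h0
      rw [pow_two]
      nth_rewrite 2 [h1]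
      exact mul_inv_cancel₀ hX0
    apply mul_right_cancel₀ hX3
    rw [hr]
    unfold kap
    rw [D.bt_nat]
    obtain ⟨Z, hZ⟩ : ∃ Z, Z = D.β ^ h := ⟨_, rfl⟩
    rw [← hZ] at hX0 hX2 ⊢
    have h1 := geom_sum_mul (Z ^ 2) D.p
    have h2 : Z - Z⁻¹ = Z⁻¹ * (Z ^ 2 - 1) := by field_simp
    rw [h2, mul_assoc, mul_comm Z⁻¹, ← mul_assoc (∑ i ∈ Finset.range D.p, (Z ^ 2) ^ i), h1]
    obtain ⟨p', hp'⟩ : ∃ p', D.p = p' + 1 := ⟨D.p - 1, by omega⟩
    rw [hp', Nat.add_sub_cancel]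
    field_simp
    ring
  have hsum : ∑ i ∈ Finset.range D.p, ((u ^ 2) ^ D.p ^ W) ^ i ∈ Q := by
    have h1 : (u' ^ h) ^ (D.p - 1) * ∑ i ∈ Finset.range D.p, ((u ^ 2) ^ D.p ^ W) ^ i ∈ Q := by
      have e1 : (u' ^ h) ^ (D.p - 1) * ∑ i ∈ Finset.range D.p, ((u ^ 2) ^ D.p ^ W) ^ i = r := by
        apply Subtype.ext
        rw [← hkap]
        unfold kap
        push_cast
        rw [hu, hu', D.bt_nat, ← hh, inv_pow, inv_pow, ← pow_mul D.β 2 h, ← pow_mul D.β h 2,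
          mul_comm 2 h]
      rw [e1]
      exact hrQ
    rcases hQp.mem_or_mem h1 with h2 | h2
    · exfalso
      apply hQp.ne_top
      rw [Ideal.eq_top_iff_one]
      have h3 : (u ^ h) ^ (D.p - 1) * (u' ^ h) ^ (D.p - 1) = 1 := by
        rw [← mul_pow, ← mul_pow, huu, one_pow, one_pow]
      rw [← h3]
      exact Q.mul_mem_left _ h2
    · exact h2
  obtain ⟨B, hB⟩ : ∃ B, B = u ^ 2 := ⟨_, rfl⟩
  rw [← hB] at hsum
  have hBK : (B : K) = D.β ^ 2 := by rw [hB]; push_cast; rw [hu]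
  have hord : orderOf (Ideal.Quotient.mk Q B) = g := by
    rw [hg]; exact order_eq D.hp hqp hqne hqQ hsum
  have hpow1 : (Ideal.Quotient.mk Q B) ^ g = 1 := by rw [← hord]; exact pow_orderOf_eq_one _
  refine ⟨W, E, J, hdW, by omega, by rw [eκ, hh], fun j _ => by rw [e4 j, hg],
    fun t s ht hs => ⟨ht, ?_, ?_, ?_, ⟨?_, ?_⟩, ?_, ?_, ?_⟩⟩
  · intro i hi
    refine ⟨hs i hi, ?_⟩
    simp only
    rw [← zpow_natCast, ← zpow_mul, mul_comm D.α, ← zpow_add_one₀ D.hα, hJE i hi]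
    congr 1
    push_cast
    ring
  · intro i hi
    simp only
    obtain ⟨v, -, hv2, hv⟩ := key i hi
    refine ⟨?_, ?_⟩
    · rw [← zpow_natCast, ← zpow_sub₀ D.hα, D.ord_zpow, hv]
      have : D.p ^ D.e ≤ D.p ^ v := Nat.pow_le_pow_right D.hp.pos hv2
      omega
    · rw [D.tq_nat, hv]
      exact D.pow_complete v hv2
  · intro i hi
    simp only
    have h1 : 1 ≤ 2 ^ i * w := Nat.mul_pos (by positivity) (by omega)
    have h2 : 2 ^ (i + 1) * w = 2 ^ i * w + 2 ^ i * w := by ring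
    have h3 : w ≤ 2 ^ i * w := Nat.le_mul_of_pos_left _ (by positivity)
    rw [e1 i (by omega), e1 (i + 1) (by omega), h2]
    refine ⟨?_, ?_⟩
    · rw [mul_comm D.α, ← zpow_add_one₀ D.hα, ← zpow_sub₀ D.hα, D.ord_zpow]
      have : D.p ^ (2 ^ i * w) < D.p ^ (2 ^ i * w + 2 ^ i * w) :=
        Nat.pow_lt_pow_right (by omega) (by omega)
      omega
    · exact (D.prodT_iff (hdw.mul_left _) (hdw.mul_left _) (hdw.mul_left _) (by omega) h1 h1).2 rfl
  · simp only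
    rw [eκ, eB, hh, mul_comm D.α, ← zpow_add_one₀ D.hα, ← zpow_sub₀ D.hα, D.ord_zpow]
    have : D.p ^ W < D.p ^ (W + w) := Nat.pow_lt_pow_right (by omega) (by omega)
    omega
  · simp only
    rw [eκ, eB, e0, hh]
    exact (D.prodT_iff hdW hdw hdw (by omega) (by omega) (by omega)).2 rfl
  · simp only
    rw [e0, ← zpow_natCast, ← zpow_sub₀ D.hα, D.ord_zpow]
    omega
  · intro j hj
    simp only
    rw [e4 j, eB]
    refine ⟨?_, ?_⟩
    · rw [D.ord_zpow]; positivity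
    · rw [← zpow_natCast, ← zpow_mul, ← zpow_sub₀ D.hα, D.ord_zpow]
      have h2 : g * X j ≤ D.p ^ (W + w) * D.p := by
        calc g * X j ≤ g * D.p ^ w := Nat.mul_le_mul_left _ (hxw j hj).le
          _ = D.p ^ (W + w) * D.p := by rw [hg, ← pow_add, ← pow_succ]; congr 1; omega
      have h3 : ((g * X j : ℕ) : ℤ) ≤ ((D.p ^ (W + w) : ℕ) : ℤ) * (D.p : ℕ) := by
        exact_mod_cast h2
      linarith
  · -- the quotients
    have hquo : ∀ j < M, ((∑ i ∈ Finset.range (X j), (B ^ g) ^ i : D.O) : K) =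
        D.dq κ (fun i => D.α ^ (E i : ℤ)) j := by
      intro j hj
      unfold dq
      push_cast
      have h2 : (D.β ^ 2) ^ g ≠ 1 := D.hβ1 g hgpos
      have h3 : (D.Bt (D.α ^ (E κ : ℤ)) ^ 2) ^ D.p = (D.β ^ 2) ^ g := by
        rw [eκ, D.bt_nat, hgh, ← pow_mul, ← pow_mul, ← pow_mul]
        congr 1
        ring
      have h4 : D.Bt (D.α ^ (E (κ + 2 + j) : ℤ)) ^ 2 = (D.β ^ 2) ^ (g * X j) := by
        rw [e4 j, D.bt_nat, ← pow_mul, ← pow_mul, mul_comm]
      rw [hBK, geom_sum_eq h2, h4, h3, pow_mul]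
    have hmod : ∀ j, Ideal.Quotient.mk Q (∑ i ∈ Finset.range (X j), (B ^ g) ^ i) = (X j : ℕ) :=
      fun j => geom_cong hpow1 _
    apply D.cpk_complete q hq Q hQp hqQ
    intro v hv
    simp only [entsX, List.mem_append, List.mem_map, List.mem_range, List.mem_cons,
      List.not_mem_nil, or_false] at hv
    rcases hv with (hv | hv) | ⟨j, hj, hv⟩ | ⟨i, hi, hv⟩
    · refine ⟨r, hrQ, ?_⟩
      rw [hv, eκ, hkap]
    · let A : Fin M → D.O := fun j => ∑ i ∈ Finset.range (X j), (B ^ g) ^ i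
      refine ⟨aeval A P, ?_, ?_⟩
      · rw [← Ideal.Quotient.eq_zero_iff_mem]
        have e2 := comp_aeval_apply (f := A) (φ := (Ideal.Quotient.mk Q).toIntAlgHom) P
        rw [RingHom.toIntAlgHom_apply] at e2
        rw [e2]
        have h2 := T2.aeval_intCast (A := D.O ⧸ Q) (fun j : Fin M => (X j : ℤ)) P
        rw [hP, Int.cast_zero] at h2
        rw [← h2]
        congr 2
        funext j
        simp only [A, RingHom.toIntAlgHom_apply]
        rw [hmod]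
        push_cast
        rfl
      · rw [hv]
        have e2 := comp_aeval_apply (f := A) (φ := D.O.subtype.toIntAlgHom) P
        rw [RingHom.toIntAlgHom_apply] at e2
        rw [show ((aeval A P : D.O) : K) = D.O.subtype (aeval A P) from rfl, e2]
        congr 2
        funext j
        simp only [A, RingHom.toIntAlgHom_apply, Subring.coe_subtype]
        exact hquo j j.2
    · rw [← hv]
      refine ⟨B ^ (g * X j) - 1, ?_, ?_⟩
      · rw [← Ideal.Quotient.eq_zero_iff_mem, map_sub, map_pow, map_one, pow_mul, hpow1, one_pow,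
          sub_self]
      · push_cast
        rw [hBK, e4 j, D.bt_nat, ← pow_mul, ← pow_mul, mul_comm]
    · rw [← hv]
      refine ⟨(X i : D.O) - (X (k + i) : D.O) - (∑ l ∈ Finset.range (X i), (B ^ g) ^ l -
        ∑ l ∈ Finset.range (X (k + i)), (B ^ g) ^ l), ?_, ?_⟩
      · rw [← Ideal.Quotient.eq_zero_iff_mem]
        rw [map_sub, map_sub, map_sub, hmod, hmod, map_natCast, map_natCast, sub_self]
      · rw [← hquo i (by omega), ← hquo (k + i) (by omega)]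
        push_cast
        simp only [map_sub, map_natCast]

end RD

end Vale.Agent.P027.T3
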