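import Mathlib

/-! Primes congruent to one modulo a power of three and to three modulo four. -/

namespace Vale.Agent.P027.T3

theorem exists_primes (κ n : ℕ) :
    ∃ p, n < p ∧ p.Prime ∧ p ≡ 1 [MOD 3 ^ κ] ∧ p % 12 = 7 := by
  obtain ⟨j, hj⟩ : Odd (3 ^ κ) := (show Odd 3 by decide).pow
  have h0 : 0 < 3 ^ κ := by positivity
  generalize 3 ^ κ = N at *
  have hcop : (1 + 6 * N).Coprime (12 * N) := by
    apply Nat.Coprime.mul_right
    · rw [hj, show 1 + 6 * (2 * j + 1) = 7 + 12 * j by ring, Nat.coprime_add_mul_left_left]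
      decide
    · rw [mul_comm, Nat.coprime_add_mul_left_left]
      exact Nat.coprime_one_left _
  obtain ⟨p, hp, hp1, hp2⟩ := Nat.forall_exists_prime_gt_and_modEq n
    (show 12 * N ≠ 0 by positivity) hcop
  refine ⟨p, hp, hp1, ?_, ?_⟩
  · have h1 : p ≡ 1 + 6 * N [MOD N] := hp2.of_mul_left 12
    have h2 : 1 + 6 * N ≡ 1 [MOD N] := by
      unfold Nat.ModEq
      rw [Nat.add_mul_mod_self_right]
    exact h1.trans h2
  · have h1 : p ≡ 1 + 6 * N [MOD 12] := hp2.of_mul_right N
    unfold Nat.ModEq at h1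
    omega

end Vale.Agent.P027.T3
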