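import Mathlib

/-! Integral bases, the Galois group and the Frobenius congruence of cyclotomic fields of
three-power conductor. -/

namespace Vale.Agent.P027.T3

open Module NumberField Polynomial

/-- an integral basis indexed by `Fin n` -/
theorem exists_bas (K : Type) [Field K] [NumberField K] {n : ℕ} (hn : Module.finrank ℚ K = n) :
    ∃ b : Basis (Fin n) ℚ K, ∀ x : K, IsIntegral ℤ x ↔ ∀ i, ∃ z : ℤ, b.repr x i = z := by
  classical
  have hc : Fintype.card (Free.ChooseBasisIndex ℤ (𝓞 K)) = n := by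
    rw [← hn, ← Module.finrank_eq_card_basis (integralBasis K)]
  let e := Fintype.equivFinOfCardEq hc
  refine ⟨(integralBasis K).reindex e, fun x => ?_⟩
  have h1 : IsIntegral ℤ x ↔ x ∈ (algebraMap (𝓞 K) K).range := by
    constructor
    · intro h
      exact ⟨⟨x, h⟩, rfl⟩
    · rintro ⟨y, rfl⟩
      exact RingOfIntegers.isIntegral_coe y
  rw [h1, ← mem_span_integralBasis, Basis.mem_span_iff_repr_mem]
  constructor
  · intro h i
    obtain ⟨z, hz⟩ := h (e.symm i)
    exact ⟨z, by rw [Basis.repr_reindex_apply, ← hz]; rfl⟩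
  · intro h i
    obtain ⟨z, hz⟩ := h (e i)
    rw [Basis.repr_reindex_apply, Equiv.symm_apply_apply] at hz
    exact ⟨z, by rw [hz]; rfl⟩

section cyc

variable (n : ℕ) [NeZero n] (K : Type) [Field K] [NumberField K] [IsCyclotomicExtension {n} ℚ K]

open IsCyclotomicExtension IsCyclotomicExtension.Rat

/-- the automorphism raising roots of unity to a power -/
theorem symm_apply (u : (ZMod n)ˣ) {x : K} (hx : x ^ n = 1) :
    (galEquivZMod n K).symm u x = x ^ (u.val.val) := by
  rw [galEquivZMod_apply_of_pow_eq n K _ hx, MulEquiv.apply_symm_apply]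

/-- two homomorphisms agreeing at the root of unity -/
theorem hom_ext {L : Type} [Field L] [CharZero L] {f g : K →+* L}
    (h : f (zeta n ℚ K) = g (zeta n ℚ K)) : f = g := by
  have h1 : f.toRatAlgHom = g.toRatAlgHom := by
    apply (IsPrimitiveRoot.powerBasis ℚ (zeta_spec n ℚ K)).algHom_ext
    rw [IsPrimitiveRoot.powerBasis_gen]
    exact h
  ext x
  exact DFunLike.congr_fun h1 x

/-- the Frobenius congruence -/
theorem frob {r : ℕ} (hr : r.Prime) (τ : K ≃ₐ[ℚ] K)
    (hτ : τ (zeta n ℚ K) = (zeta n ℚ K) ^ r) (x : K) (hx : IsIntegral ℤ x) :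
    ∃ y, IsIntegral ℤ y ∧ τ x = x ^ r + r * y := by
  have hζ := zeta_spec n ℚ K
  have hx' : x ∈ Algebra.adjoin ℤ {zeta n ℚ K} := by
    obtain ⟨y, hy⟩ := (isIntegralClosure_adjoin_singleton hζ).isIntegral_iff.1 hx
    rw [← hy]
    exact y.2
  have hint : ∀ z ∈ Algebra.adjoin ℤ {zeta n ℚ K}, IsIntegral ℤ z := by
    intro z hz
    exact (isIntegralClosure_adjoin_singleton hζ).isIntegral_iff.2 ⟨⟨z, hz⟩, rfl⟩
  induction hx' using Algebra.adjoin_induction with
  | mem z hz =>
    rw [Set.mem_singleton_iff] at hz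
    subst hz
    exact ⟨0, isIntegral_zero, by rw [hτ]; ring⟩
  | algebraMap k =>
    have := Fact.mk hr
    have h1 : (r : ℤ) ∣ k - k ^ r := by
      rw [← ZMod.intCast_zmod_eq_zero_iff_dvd]
      push_cast
      rw [ZMod.pow_card, sub_self]
    obtain ⟨c, hc⟩ := h1
    refine ⟨(c : K), isIntegral_algebraMap (R := ℤ) (A := K) (x := c), ?_⟩
    have h2 : τ (algebraMap ℤ K k) = (k : K) := by
      rw [show algebraMap ℤ K k = (k : K) from rfl, map_intCast]
    rw [h2, show algebraMap ℤ K k = (k : K) from rfl]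
    have h3 : (k : K) - (k : K) ^ r = r * c := by exact_mod_cast congrArg (Int.cast (R := K)) hc
    linear_combination h3
  | add a b ha hb iha ihb =>
    obtain ⟨ya, ha1, ha2⟩ := iha (hint a ha)
    obtain ⟨yb, hb1, hb2⟩ := ihb (hint b hb)
    let A : integralClosure ℤ K := ⟨a, hint a ha⟩
    let B : integralClosure ℤ K := ⟨b, hint b hb⟩
    obtain ⟨c, hc⟩ := exists_add_pow_prime_eq hr A B
    have hc' : (a + b) ^ r = a ^ r + b ^ r + r * a * b * (c : K) := by
      have := congrArg (algebraMap (integralClosure ℤ K) K) hc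
      simpa using this
    refine ⟨ya + yb - a * b * (c : K), ?_, ?_⟩
    · exact (ha1.add hb1).sub (((hint a ha).mul (hint b hb)).mul c.2)
    · rw [map_add, ha2, hb2, hc']
      ring
  | mul a b ha hb iha ihb =>
    obtain ⟨ya, ha1, ha2⟩ := iha (hint a ha)
    obtain ⟨yb, hb1, hb2⟩ := ihb (hint b hb)
    refine ⟨a ^ r * yb + b ^ r * ya + r * ya * yb, ?_, ?_⟩
    · have hri : IsIntegral ℤ (r : K) := isIntegral_natCast _
      exact ((((hint a ha).pow r).mul hb1).add (((hint b hb).pow r).mul ha1)).add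
        ((hri.mul ha1).mul hb1)
    · rw [map_mul, ha2, hb2]
      ring

end cyc

end Vale.Agent.P027.T3
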