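import Mathlib
import Vale.Agent.P027.R3.H124.FldBas

/-! The Galois group of the cyclotomic field of three-power conductor. -/

namespace Vale.Agent.P027.T3

open Module NumberField Polynomial IsCyclotomicExtension IsCyclotomicExtension.Rat

variable (κ : ℕ) (K : Type) [Field K] [NumberField K] [hK : IsCyclotomicExtension {3 ^ κ} ℚ K]

theorem totient_three {κ : ℕ} (hκ : 2 ≤ κ) : (3 ^ κ).totient = 2 * (3 * 3 ^ (κ - 2)) := by
  obtain ⟨j, rfl⟩ := Nat.exists_eq_add_of_le hκ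
  rw [Nat.totient_prime_pow Nat.prime_three (by omega)]
  rw [show 2 + j - 1 = j + 1 by omega, show 2 + j - 2 = j by omega, pow_succ]
  ring

/-- the generator of the Galois group, and its properties -/
theorem exists_sigma (hκ : 2 ≤ κ) :
    ∃ σ : K ≃ₐ[ℚ] K, σ ^ (2 * (3 * 3 ^ (κ - 2))) = 1 ∧
      (∀ τ : K ≃ₐ[ℚ] K, ∃ i, i < 2 * (3 * 3 ^ (κ - 2)) ∧ τ = σ ^ i) ∧
      (∀ (f : K →+* ℂ) (x : K), f ((σ ^ (3 * 3 ^ (κ - 2))) x) = starRingEnd ℂ (f x)) := by
  set m := 3 * 3 ^ (κ - 2) with hm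
  have hm0 : 0 < m := by positivity
  have hn3 : 3 < 3 ^ κ := by
    calc 3 = 3 ^ 1 := by norm_num
      _ < 3 ^ κ := Nat.pow_lt_pow_right (by norm_num) (by omega)
  let e := galEquivZMod (3 ^ κ) K
  have hcyc : IsCyclic (ZMod (3 ^ κ))ˣ :=
    ZMod.isCyclic_units_of_prime_pow 3 Nat.prime_three (by norm_num) κ
  have hcyc' : IsCyclic (K ≃ₐ[ℚ] K) := isCyclic_of_surjective e.symm e.symm.surjective
  obtain ⟨σ, hσ⟩ := hcyc'.exists_generator
  have hcard : Nat.card (K ≃ₐ[ℚ] K) = 2 * m := by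
    rw [Nat.card_congr e.toEquiv, Nat.card_eq_fintype_card, ZMod.card_units_eq_totient,
      totient_three hκ]
  have hord : orderOf σ = 2 * m := by rw [orderOf_eq_card_of_forall_mem_zpowers hσ, hcard]
  have hfin : IsOfFinOrder σ := orderOf_pos_iff.1 (by rw [hord]; omega)
  have hgen : ∀ τ : K ≃ₐ[ℚ] K, ∃ i, i < 2 * m ∧ τ = σ ^ i := by
    intro τ
    classical
    have h := hfin.mem_zpowers_iff_mem_range_orderOf.1 (hσ τ)
    rw [Finset.mem_image] at h
    obtain ⟨i, hi, hi2⟩ := h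
    rw [Finset.mem_range, hord] at hi
    exact ⟨i, hi, hi2.symm⟩
  refine ⟨σ, by rw [← hord, pow_orderOf_eq_one], hgen, ?_⟩
  -- the complex conjugation
  have hu : (-1 : (ZMod (3 ^ κ))ˣ) ≠ 1 := by
    intro h
    have h1 : ((-1 : (ZMod (3 ^ κ))ˣ) : ZMod (3 ^ κ)) = 1 := by rw [h]; rfl
    rw [Units.val_neg, Units.val_one] at h1
    have h2 : ((2 : ℕ) : ZMod (3 ^ κ)) = 0 := by
      push_cast
      linear_combination -h1
    rw [ZMod.natCast_eq_zero_iff] at h2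
    exact absurd (Nat.le_of_dvd (by norm_num) h2) (by omega)
  obtain ⟨i, hi, hi2⟩ := hgen (e.symm (-1))
  have hsq : σ ^ (2 * i) = 1 := by
    rw [mul_comm, pow_mul, ← hi2, ← map_pow]
    simp
  have hdvd : 2 * m ∣ 2 * i := by rw [← hord]; exact orderOf_dvd_of_pow_eq_one hsq
  have hdvd' : m ∣ i := Nat.dvd_of_mul_dvd_mul_left (by norm_num) hdvd
  have hi0 : i ≠ 0 := by
    rintro rfl
    rw [pow_zero] at hi2
    apply hu
    apply e.symm.injective
    rw [hi2, map_one]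
  have him : i = m := by
    obtain ⟨c, rfl⟩ := hdvd'
    have h1 : c ≠ 0 := by rintro rfl; exact hi0 (by ring)
    have h2 : c < 2 := by
      by_contra h
      push Not at h
      have : m * 2 ≤ m * c := Nat.mul_le_mul_left _ h
      omega
    have h3 : c = 1 := by omega
    rw [h3, mul_one]
  rw [him] at hi2
  have hζ := zeta_spec (3 ^ κ) ℚ K
  intro f
  have hinv : (σ ^ m) (zeta (3 ^ κ) ℚ K) = (zeta (3 ^ κ) ℚ K)⁻¹ := by
    rw [← hi2]
    show (galEquivZMod (3 ^ κ) K).symm (-1) _ = _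
    rw [symm_apply (3 ^ κ) K _ hζ.pow_eq_one]
    apply eq_inv_of_mul_eq_one_left
    rw [← pow_succ]
    apply (hζ.pow_eq_one_iff_dvd _).2
    rw [← ZMod.natCast_eq_zero_iff]
    push_cast
    rw [ZMod.natCast_zmod_val]
    ring
  have hext : (f.comp ((σ ^ m : K ≃ₐ[ℚ] K) : K →+* K)) = (starRingEnd ℂ).comp f := by
    apply hom_ext (3 ^ κ) K
    show f ((σ ^ m) (zeta (3 ^ κ) ℚ K)) = starRingEnd ℂ (f (zeta (3 ^ κ) ℚ K))
    rw [hinv, map_inv₀]
    have hnorm : ‖f (zeta (3 ^ κ) ℚ K)‖ = 1 := by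
      apply Complex.norm_eq_one_of_pow_eq_one (n := 3 ^ κ)
      · rw [← map_pow, hζ.pow_eq_one, map_one]
      · exact NeZero.ne _
    exact Complex.inv_eq_conj hnorm
  intro x
  exact DFunLike.congr_fun hext x

end Vale.Agent.P027.T3
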