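import Mathlib
import Vale.Agent.P027.R3.H250.Defs
import Vale.Agent.P027.R3.H124.FldGal
import Vale.Agent.P027.R3.H18.Phi
import Vale.Agent.P027.R3.H18.Frob

/-! The field data for the cyclotomic field of three-power conductor. -/

namespace Vale.Agent.P027.T3

open Module NumberField Polynomial IsCyclotomicExtension IsCyclotomicExtension.Rat

theorem cycExt (κ : ℕ) : IsCyclotomicExtension {3 ^ κ} ℚ (CyclotomicField (3 ^ κ) ℚ) :=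
  CyclotomicField.isCyclotomicExtension (3 ^ κ) ℚ

/-- the field data -/
theorem exists_fld0 (κ p : ℕ) [Fact p.Prime] (hκ : 2 ≤ κ)
    (φ : CyclotomicField (3 ^ κ) ℚ →+* ℚ_[p]) :
    ∃ D : Fld p (CyclotomicField (3 ^ κ) ℚ), D.m = 3 * 3 ^ (κ - 2) := by
  have := cycExt κ
  have hfr : Module.finrank ℚ (CyclotomicField (3 ^ κ) ℚ) = 2 * (3 * 3 ^ (κ - 2)) := by
    rw [← totient_three hκ]
    exact IsCyclotomicExtension.Rat.finrank (3 ^ κ) (CyclotomicField (3 ^ κ) ℚ)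
  obtain ⟨b, hb⟩ := exists_bas (CyclotomicField (3 ^ κ) ℚ) hfr
  obtain ⟨σ, h1, h2, h3⟩ := exists_sigma κ (CyclotomicField (3 ^ κ) ℚ) hκ
  refine ⟨⟨3 * 3 ^ (κ - 2), ?_, b, hb, σ, h1, h2, ?_, h3, φ⟩, rfl⟩
  · exact (show Odd 3 by decide).mul ((show Odd 3 by decide).pow)
  · exact IsCyclotomicExtension.isGalois {3 ^ κ} ℚ (CyclotomicField (3 ^ κ) ℚ)

/-- the Frobenius automorphism -/
theorem exists_frob (κ : ℕ) {r : ℕ} (hr : r.Prime) (hr3 : r ≠ 3)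
    (hr1 : ¬ r ≡ 1 [MOD 3 ^ κ]) :
    ∃ τ : CyclotomicField (3 ^ κ) ℚ ≃ₐ[ℚ] CyclotomicField (3 ^ κ) ℚ, τ ≠ 1 ∧
      ∀ x, IsIntegral ℤ x → ∃ y, IsIntegral ℤ y ∧ τ x = x ^ r + r * y := by
  have := cycExt κ
  have hcop : r.Coprime (3 ^ κ) := by
    apply Nat.Coprime.pow_right
    rw [Nat.coprime_primes hr Nat.prime_three]
    exact hr3
  have hζ := zeta_spec (3 ^ κ) ℚ (CyclotomicField (3 ^ κ) ℚ)
  let τ := (galEquivZMod (3 ^ κ) (CyclotomicField (3 ^ κ) ℚ)).symm (ZMod.unitOfCoprime r hcop)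
  have hτ : τ (zeta (3 ^ κ) ℚ (CyclotomicField (3 ^ κ) ℚ)) =
      (zeta (3 ^ κ) ℚ (CyclotomicField (3 ^ κ) ℚ)) ^ r := by
    rw [symm_apply (3 ^ κ) _ _ hζ.pow_eq_one, ZMod.coe_unitOfCoprime, ZMod.val_natCast,
      ← pow_eq_pow_mod r hζ.pow_eq_one]
  refine ⟨τ, ?_, frob (3 ^ κ) _ hr τ hτ⟩
  intro h
  apply hr1
  have h1 : ZMod.unitOfCoprime r hcop = 1 := by
    apply (galEquivZMod (3 ^ κ) (CyclotomicField (3 ^ κ) ℚ)).symm.injective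
    rw [map_one]
    exact h
  have h2 : (r : ZMod (3 ^ κ)) = (1 : ℕ) := by
    rw [← ZMod.coe_unitOfCoprime r hcop, h1]
    simp
  exact (ZMod.natCast_eq_natCast_iff _ _ _).1 h2

/-- N0 and N1a -/
theorem exists_fld (κ p : ℕ) [Fact p.Prime] (hκ : 2 ≤ κ) (hp : p ≡ 1 [MOD 3 ^ κ]) :
    ∃ D : Fld p (CyclotomicField (3 ^ κ) ℚ), D.m = 3 * 3 ^ (κ - 2) ∧
      ∀ r : ℕ, r.Prime → r ≠ 3 → ¬ r ≡ 1 [MOD 3 ^ κ] → ∀ t : CyclotomicField (3 ^ κ) ℚ,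
        t * (D.σ ^ (3 * 3 ^ (κ - 2))) t = 1 →
        t * (D.σ ^ (2 * 3 ^ (κ - 2))) t * (D.σ ^ (4 * 3 ^ (κ - 2))) t = 1 → Pint r t := by
  obtain ⟨φ⟩ := exists_phi' hp
  obtain ⟨D, hD⟩ := exists_fld0 κ p hκ φ
  refine ⟨D, hD, fun r hr hr3 hr1 t h1 h2 => ?_⟩
  obtain ⟨τ, hτ, hfr⟩ := exists_frob κ hr hr3 hr1
  exact pint_of_frob D hD rfl hr hτ hfr h1 h2

end Vale.Agent.P027.T3
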