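import Mathlib
import Vale.Agent.P027.R2.H124.Forms2
import Vale.Agent.P027.R3.H124.Comp3

/-! The reading formula over a number field is Diophantine; the theorem for abstract data. -/

namespace Vale.Agent.P027.T3

open Vale.Agent.P027 MvPolynomial Module

variable {K : Type} [Field K] [Algebra ℚ K] (D : RD K)

namespace RD

theorem fn_tq {f : (ℕ → ℚ) → K} (hf : FnK D.b f) : FnK D.b (fun v => D.tq (f v)) :=
  (((D.fn_bt hf).pow 2).sub (FnK.const 1)).div (((D.fn_bt hf).pow 2).add (FnK.const 1))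

theorem dio_prodT {f g h : (ℕ → ℚ) → K} (hf : FnK D.b f) (hg : FnK D.b g) (hh : FnK D.b h) :
    Dio (fun v => D.ProdT (f v) (g v) (h v)) :=
  D.dio_T ((D.fn_tq (hh.div hf)).div (D.fn_tq ((hg.pow _).div (FnK.const _))))

theorem fn_kap {f : (ℕ → ℚ) → K} (hf : FnK D.b f) : FnK D.b (fun v => D.kap (f v)) :=
  ((D.fn_bt hf).pow (D.p - 1)).inv.mul
    (FnK.sum (Finset.range D.p) (fun i => (((D.fn_bt hf).pow 2).pow i)))

/-- entries as functions of the environment -/
noncomputable def entsF {k m : ℕ} (P : MvPolynomial (Fin k ⊕ Fin m) ℤ) (κ : ℕ)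
    (A : Fin k → (ℕ → ℚ) → K) (z : ℕ → (ℕ → ℚ) → K) : List ((ℕ → ℚ) → K) :=
  [fun v => D.kap (z κ v), fun v => aeval (fun i => Sum.elim (fun i => A i v) (fun j : Fin m =>
      (D.Bt (z (κ + 2 + j) v) ^ 2 - 1) / ((D.Bt (z κ v) ^ 2) ^ D.p - 1)) i) P] ++
  (List.range m).map (fun j => fun v => D.Bt (z (κ + 2 + j) v) ^ 2 - 1)

theorem entsF_map {k m : ℕ} (P : MvPolynomial (Fin k ⊕ Fin m) ℤ) (κ : ℕ)
    (A : Fin k → (ℕ → ℚ) → K) (z : ℕ → (ℕ → ℚ) → K) (v : ℕ → ℚ) :
    (D.entsF P κ A z).map (fun f => f v) = D.ents P κ (fun i => A i v) (fun j => z j v) := by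
  simp [entsF, ents]

theorem dio_read {k m : ℕ} (P : MvPolynomial (Fin k ⊕ Fin m) ℤ) (κ c₀ : ℕ)
    {A C : Fin k → (ℕ → ℚ) → K} {t z s x : ℕ → (ℕ → ℚ) → K} (hA : ∀ i, FnK D.b (A i))
    (hC : ∀ i, FnK D.b (C i)) (ht : ∀ i, FnK D.b (t i)) (hz : ∀ i, FnK D.b (z i))
    (hs : ∀ i, FnK D.b (s i)) (hx : ∀ i, FnK D.b (x i)) :
    Dio (fun v => D.Read P κ c₀ (fun i => A i v) (fun i => C i v) (fun i => t i v)
      (fun i => z i v) (fun i => s i v) (fun i => x i v)) := by
  unfold Read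
  refine Dio.and ?_ (Dio.and ?_ (Dio.and ?_ (Dio.and ?_ (Dio.and ?_ (Dio.and ?_
    (Dio.and ?_ (Dio.and ?_ ?_)))))))
  · exact K2.Dio.forall_lt (fun j => D.dio_mem (ht j) (hz j)) _
  · exact K2.Dio.forall_lt (fun j => (D.dio_mem (hs j) (hx j)).and
      (dioK_eq (hz j) ((FnK.const D.α).mul ((hx j).pow _)))) _
  · exact K2.Dio.forall_lt (fun j => (D.dio_ord ((hz j).div (FnK.const (D.α ^ D.p ^ D.e)))).and
      (D.dio_T ((D.fn_tq (hz j)).div (FnK.const (tauQ D.β (D.p ^ D.e)))))) _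
  · exact K2.Dio.forall_lt (fun j => (D.dio_ord ((hz (j + 1)).div
      ((FnK.const D.α).mul (hz j)))).and (D.dio_prodT (hz j) (hz j) (hz (j + 1)))) _
  · exact (D.dio_ord ((hz _).div ((FnK.const D.α).mul (hz _)))).and
      (D.dio_prodT (hz _) (hz _) (hz _))
  · exact D.dio_ord ((hz 0).div (FnK.const (D.α ^ c₀)))
  · exact dio_fin (fun i => D.dio_ord ((hz 0).mul (hC i).inv))
  · exact K2.Dio.forall_lt (fun j => (D.dio_ord (hz _)).and
      (D.dio_ord (((hz _).pow _).div (hz _)))) _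
  · have h := D.dio_cpk (L := D.entsF P κ A z) (by
        intro f hf
        simp only [entsF, List.mem_append, List.mem_cons, List.not_mem_nil, or_false,
          List.mem_map, List.mem_range] at hf
        rcases hf with (rfl | rfl) | ⟨j, _, rfl⟩
        · exact D.fn_kap (hz _)
        · refine FnK.aeval P (A := fun i v => Sum.elim (fun i => A i v) (fun j : Fin m =>
            (D.Bt (z (κ + 2 + j) v) ^ 2 - 1) / ((D.Bt (z κ v) ^ 2) ^ D.p - 1)) i) ?_
          intro i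
          rcases i with i | i
          · exact hA i
          · exact (((D.fn_bt (hz _)).pow 2).sub (FnK.const 1)).div
              ((((D.fn_bt (hz _)).pow 2).pow _).sub (FnK.const 1))
        · exact ((D.fn_bt (hz _)).pow 2).sub (FnK.const 1))
    refine h.congr (fun v => ?_)
    rw [entsF_map]

/-- only finitely many entries matter -/
lemma Read.congr {k m : ℕ} {P : MvPolynomial (Fin k ⊕ Fin m) ℤ} {κ c₀ : ℕ} {a c : Fin k → K}
    {t z s x t' z' s' x' : ℕ → K} (h1 : ∀ i < κ + 2 + m, t i = t' i ∧ z i = z' i)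
    (h2 : ∀ i < κ + 2, s i = s' i ∧ x i = x' i) (hR : D.Read P κ c₀ a c t z s x) :
    D.Read P κ c₀ a c t' z' s' x' := by
  obtain ⟨r1, r2, r3, r4, ⟨r5, r6⟩, r7, r8, r9, r10⟩ := hR
  have qz : ∀ j < κ + 2 + m, z' j = z j := fun j hj => (h1 j hj).2.symm
  refine ⟨?_, ?_, ?_, ?_, ⟨?_, ?_⟩, ?_, ?_, ?_, ?_⟩
  · intro i hi
    rw [← (h1 i hi).1, qz i hi]; exact r1 i hi
  · intro i hi
    rw [← (h2 i hi).1, ← (h2 i hi).2, qz i (by omega)]; exact r2 i hi
  · intro i hi
    rw [qz i (by omega)]; exact r3 i hi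
  · intro i hi
    rw [qz i (by omega), qz (i + 1) (by omega)]; exact r4 i hi
  · rw [qz κ (by omega), qz (κ + 1) (by omega)]; exact r5
  · rw [qz κ (by omega), qz (κ + 1) (by omega), qz 0 (by omega)]; exact r6
  · rw [qz 0 (by omega)]; exact r7
  · intro i
    rw [qz 0 (by omega)]; exact r8 i
  · intro j hj
    rw [qz (κ + 2 + j) (by omega), qz (κ + 1) (by omega)]; exact r9 j hj
  · have e4 : D.ents P κ a z' = D.ents P κ a z := by
      unfold ents
      rw [qz κ (by omega)]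
      have e5 : (fun j : Fin m => (D.Bt (z' (κ + 2 + j)) ^ 2 - 1) / ((D.Bt (z κ) ^ 2) ^ D.p - 1)) =
          fun j : Fin m => (D.Bt (z (κ + 2 + j)) ^ 2 - 1) / ((D.Bt (z κ) ^ 2) ^ D.p - 1) := by
        funext j
        rw [qz (κ + 2 + j) (by omega)]
      have e6 : (List.range m).map (fun j => D.Bt (z' (κ + 2 + j)) ^ 2 - 1) =
          (List.range m).map (fun j => D.Bt (z (κ + 2 + j)) ^ 2 - 1) := by
        refine List.map_congr_left (fun j hj => ?_)
        have := List.mem_range.1 hj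
        rw [qz (κ + 2 + j) (by omega)]
      rw [e5, e6]
    rw [e4]
    exact r10

/-- the polynomial of a recursively enumerable set of tuples of natural numbers -/
theorem dprm {k : ℕ} {S : Set (Fin k → ℕ)} (hS : REPred (fun a => a ∈ S)) :
    ∃ (n : ℕ) (P : MvPolynomial (Fin k ⊕ Fin n) ℤ), ∀ a : Fin k → ℕ,
      (a ∈ S ↔ ∃ x : Fin n → ℕ, eval (Sum.elim (fun i => (a i : ℤ)) (fun j => (x j : ℤ))) P = 0) := by
  obtain ⟨m, P, hP, -⟩ := Vale.Agent.P345.SF.exists_mvPolynomial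
    (Vale.Agent.P345.sf_of_rePred _ _ hS)
  exact ⟨m, P, hP⟩

open Vale.Agent.P027.T2 in
/-- the main theorem for abstract data -/
theorem main (k : ℕ) (S : Set (Fin k → ℕ)) (hS : REPred (fun a => a ∈ S)) :
    ∃ (M r : ℕ) (F : MvPolynomial (Fin (k + k) ⊕ Fin M ⊕ Fin r) ℤ),
    ∀ (a : Fin k → ℕ) (b : Fin (k + k) → ℤ),
      b = Fin.append (fun i => (a i : ℤ)) (fun i => (D.p : ℤ) ^ a i) →
      (a ∈ S → ∃ (u : Fin M → ℚ) (y : Fin r → ℤ),
        (∀ i, ∃ (x : ℤ) (j : ℕ), u i = (x : ℚ) / D.p ^ j) ∧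
        aeval (Sum.elim (fun i => (b i : ℚ)) (Sum.elim u (fun j => (y j : ℚ)))) F = 0) ∧
      (∀ (u : Fin M → ℚ) (y : Fin r → ℚ),
        (∀ t : K, (∀ j, D.b.repr t j ∈ Set.range u) → D.Adm t) →
        aeval (Sum.elim (fun i => (b i : ℚ)) (Sum.elim u y)) F = 0 → a ∈ S) := by
  obtain ⟨m, P, hP⟩ := dprm hS
  obtain ⟨C, d, hCd⟩ := eval_bound P
  obtain ⟨κ, hκ⟩ : ∃ κ, κ = D.n * (d + 1) := ⟨_, rfl⟩
  have hκ2 : D.n * (d + 1) ≤ 2 ^ κ := by rw [← hκ]; exact Nat.lt_two_pow_self.le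
  obtain ⟨c₀, hc₀⟩ : ∃ c₀, c₀ = C * D.a0 ^ d + 1 := ⟨_, rfl⟩
  obtain ⟨N, hN⟩ : ∃ N, N = κ + 2 + m := ⟨_, rfl⟩
  obtain ⟨M, hM⟩ : ∃ M, M = N + (κ + 2) := ⟨_, rfl⟩
  let Z : (Fin M → K) → ℕ → K := fun y i => if h : i < M then y ⟨i, h⟩ else 1
  let T : (Fin M → K) → (ℕ → ℚ) → Prop := fun y v =>
    D.Read P κ c₀ (fun i => algebraMap ℚ K (v i)) (fun i => algebraMap ℚ K (v (k + i)))
      (fun i => kv D.b (k + k + i * D.n) v) (fun i => Z y i)
      (fun i => kv D.b (k + k + (N + i) * D.n) v) (fun i => Z y (N + i))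
  have hT : Dio (fun v => ∃ y, T y v) := by
    refine exKN (b := D.b) ?_
    have hZ : ∀ i, FnK D.b (fun v => Z (fun l : Fin M => kv D.b (l * D.n) v) i) := by
      intro i
      by_cases hi : i < M
      · exact (fnK_kv (b := D.b) (i * D.n)).congr (fun v => by simp [Z, hi])
      · exact (FnK.const (b := D.b) 1).congr (fun v => by simp [Z, hi])
    exact D.dio_read P κ c₀ (fun i => (FnK.rat (DioFn.var _)).dr _)
      (fun i => (FnK.rat (DioFn.var _)).dr _) (fun i => (fnK_kv _).dr _) (fun i => hZ i)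
      (fun i => (fnK_kv _).dr _) (fun i => hZ (N + i))
  obtain ⟨r, F, hF⟩ := pack (k := k + k) (m := M * D.n) hT
  have ea : ∀ (a : Fin k → ℕ) (w : Fin (M * D.n) → ℚ) (i : Fin k),
      envT (Fin.append (fun i => (a i : ℤ)) (fun i => (D.p : ℤ) ^ a i)) w i = a i := by
    intro a w i
    have h1 : (i : ℕ) < k + k := by omega
    have h2 : (⟨i, h1⟩ : Fin (k + k)) = Fin.castAdd k i := rfl
    simp only [envT, h1, dif_pos, h2, Fin.append_left]
    simp
  have eb : ∀ (a : Fin k → ℕ) (w : Fin (M * D.n) → ℚ) (i : Fin k),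
      envT (Fin.append (fun i => (a i : ℤ)) (fun i => (D.p : ℤ) ^ a i)) w (k + i) =
        (D.p : ℚ) ^ a i := by
    intro a w i
    have h1 : k + (i : ℕ) < k + k := by omega
    have h2 : (⟨k + i, h1⟩ : Fin (k + k)) = Fin.natAdd k i := rfl
    simp only [envT, h1, dif_pos, h2, Fin.append_right]
    simp
  have hlt : ∀ (i : ℕ) (hi : i < M) (j : Fin D.n), i * D.n + j < M * D.n := by
    intro i hi j
    calc i * D.n + j < i * D.n + D.n := by omega
      _ = (i + 1) * D.n := by ring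
      _ ≤ M * D.n := Nat.mul_le_mul_right _ hi
  have ekv : ∀ (b : Fin (k + k) → ℤ) (w : Fin (M * D.n) → ℚ) (i : ℕ) (hi : i < M),
      kv D.b (k + k + i * D.n) (envT b w) = ∑ j : Fin D.n, w ⟨i * D.n + j, hlt i hi j⟩ • D.b j := by
    intro b w i hi
    unfold kv
    refine Finset.sum_congr rfl (fun j _ => ?_)
    have h1 : ¬ (k + k + i * D.n + j < k + k) := by omega
    have h2 : k + k + i * D.n + j - (k + k) = i * D.n + j := by omega
    have h3 := hlt i hi j
    simp only [envT, h1, dif_neg, not_false_eq_true, h2, h3, dif_pos]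
  refine ⟨M * D.n, r, F, fun a b hb => ⟨fun ha => ?_, fun u y hu hy => ?_⟩⟩
  · obtain ⟨x, hx⟩ := (hP a).1 ha
    obtain ⟨E, J, hR⟩ := D.read_complete P κ c₀ a x hx
    -- certificates
    obtain ⟨e, he⟩ : ∃ e : ℕ → ℤ, ∀ i, e i = if i < N then (E i : ℤ) else (J (i - N) : ℤ) :=
      ⟨_, fun _ => rfl⟩
    choose t ht1 ht2 using fun i => D.mem_complete (e i)
    let w : Fin (M * D.n) → ℚ := fun l =>
      D.b.repr (t (finProdFinEquiv.symm l).1) (finProdFinEquiv.symm l).2
    have hw : ∀ i < M, kv D.b (k + k + i * D.n) (envT b w) = t i := by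
      intro i hi
      rw [ekv b w i hi]
      conv_rhs => rw [← D.b.sum_repr (t i)]
      refine Finset.sum_congr rfl (fun j _ => ?_)
      have h1 : (⟨i * D.n + j, hlt i hi j⟩ : Fin (M * D.n)) = finProdFinEquiv (⟨i, hi⟩, j) := by
        apply Fin.ext
        simp [finProdFinEquiv]
        ring
      rw [h1]
      simp only [w, Equiv.symm_apply_apply]
    obtain ⟨y, hy⟩ := (hF b w).1 (by
      refine ⟨fun l => D.α ^ e l, ?_⟩
      simp only [T]
      rw [hb]
      have q1 : (fun i : Fin k => algebraMap ℚ K (envT (Fin.append (fun i => (a i : ℤ))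
          (fun i => (D.p : ℤ) ^ a i)) w i)) = fun i => ((a i : ℕ) : K) := by
        funext i; rw [ea]; simp
      have q2 : (fun i : Fin k => algebraMap ℚ K (envT (Fin.append (fun i => (a i : ℤ))
          (fun i => (D.p : ℤ) ^ a i)) w (k + i))) = fun i => (D.p : K) ^ a i := by
        funext i; rw [eb]; simp
      rw [q1, q2, ← hb]
      have hRR := hR t (fun i => t (N + i)) (by
        intro i hi
        have h1 : e i = E i := by rw [he, if_pos (by omega)]
        rw [← h1]; exact ht2 i) (by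
        intro i hi
        have h1 : e (N + i) = J i := by
          rw [he, if_neg (by omega)]
          congr 2
          omega
        rw [← h1]; exact ht2 (N + i))
      refine Read.congr D ?_ ?_ hRR
      · intro i hi
        refine ⟨(hw i (by omega)).symm, ?_⟩
        have h1 : i < M := by omega
        simp only [Z, h1, dif_pos]
        rw [he, if_pos (by omega)]
      · intro i hi
        refine ⟨(hw (N + i) (by omega)).symm, ?_⟩
        have h1 : N + i < M := by omega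
        have h2 : N + i - N = i := by omega
        simp only [Z, h1, dif_pos]
        rw [he, if_neg (by omega), h2])
    exact ⟨w, y, fun l => ht1 _ _, hy⟩
  · obtain ⟨z, hz⟩ := (hF b u).2 ⟨y, hy⟩
    simp only [T] at hz
    rw [hb] at hz
    have q1 : (fun i : Fin k => algebraMap ℚ K (envT (Fin.append (fun i => (a i : ℤ))
        (fun i => (D.p : ℤ) ^ a i)) u i)) = fun i => ((a i : ℕ) : K) := by
      funext i; rw [ea]; simp
    have q2 : (fun i : Fin k => algebraMap ℚ K (envT (Fin.append (fun i => (a i : ℤ))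
        (fun i => (D.p : ℤ) ^ a i)) u (k + i))) = fun i => (D.p : K) ^ a i := by
      funext i; rw [eb]; simp
    rw [q1, q2, ← hb] at hz
    have hadm : ∀ i < M, D.Adm (kv D.b (k + k + i * D.n) (envT b u)) := by
      intro i hi
      apply hu
      intro j
      rw [ekv b u i hi, Basis.repr_sum_self]
      exact ⟨_, rfl⟩
    obtain ⟨X, hX⟩ := D.read_sound P hCd hκ2 (le_of_eq hc₀.symm) a _ _ _ _
      (fun i hi => hadm i (by omega)) (fun i hi => hadm (N + i) (by omega)) hz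
    exact (hP a).2 ⟨X, hX⟩

end RD

end Vale.Agent.P027.T3
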