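import Vale.Agent.P027.R3.H124.SpecX

set_option linter.all false

/-! The reading formula with rational inputs is Diophantine. -/

namespace Vale.Agent.P027.T3

open Vale.Agent.P027 MvPolynomial Module

variable {K : Type} [Field K] [Algebra ℚ K] (D : RD K)

namespace RD

theorem fn_dq (κ : ℕ) {z : ℕ → (ℕ → ℚ) → K} (hz : ∀ i, FnK D.b (z i)) (j : ℕ) :
    FnK D.b (fun v => D.dq κ (fun i => z i v) j) :=
  (((D.fn_bt (hz _)).pow 2).sub (FnK.const 1)).div
    ((((D.fn_bt (hz _)).pow 2).pow _).sub (FnK.const 1))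

/-- entries as functions of the environment -/
noncomputable def entsXF {M : ℕ} (P : MvPolynomial (Fin M) ℤ) (κ k : ℕ)
    (a : ℕ → (ℕ → ℚ) → K) (z : ℕ → (ℕ → ℚ) → K) : List ((ℕ → ℚ) → K) :=
  [fun v => D.kap (z κ v),
    fun v => aeval (fun i => Sum.elim (fun i : Fin 0 => (0 : K))
      (fun j : Fin M => D.dq κ (fun i => z i v) j) i)
      (rename (Sum.inr : Fin M → Fin 0 ⊕ Fin M) P)] ++
  ((List.range M).map (fun j => fun v => D.Bt (z (κ + 2 + j) v) ^ 2 - 1) ++
  (List.range k).map (fun i => fun v => a i v - (D.dq κ (fun i => z i v) i -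
    D.dq κ (fun i => z i v) (k + i))))

theorem entsXF_map {M : ℕ} (P : MvPolynomial (Fin M) ℤ) (κ k : ℕ)
    (a : ℕ → (ℕ → ℚ) → K) (z : ℕ → (ℕ → ℚ) → K) (v : ℕ → ℚ) :
    (D.entsXF P κ k a z).map (fun f => f v) =
      D.entsX P κ k (fun i => a i v) (fun j => z j v) := by
  have h : aeval (fun i => Sum.elim (fun i : Fin 0 => (0 : K))
      (fun j : Fin M => D.dq κ (fun i => z i v) j) i)
      (rename (Sum.inr : Fin M → Fin 0 ⊕ Fin M) P) =
      aeval (fun j : Fin M => D.dq κ (fun i => z i v) j) P := by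
    rw [aeval_rename]
    rfl
  simp [entsXF, entsX, h]
  rfl

theorem dio_readX {M : ℕ} (P : MvPolynomial (Fin M) ℤ) (κ c₀ k : ℕ)
    {a t z s x : ℕ → (ℕ → ℚ) → K} (ha : ∀ i, FnK D.b (a i))
    (ht : ∀ i, FnK D.b (t i)) (hz : ∀ i, FnK D.b (z i))
    (hs : ∀ i, FnK D.b (s i)) (hx : ∀ i, FnK D.b (x i)) :
    Dio (fun v => D.ReadX P κ c₀ k (fun i => a i v) (fun i => t i v)
      (fun i => z i v) (fun i => s i v) (fun i => x i v)) := by
  unfold ReadX
  refine Dio.and ?_ (Dio.and ?_ (Dio.and ?_ (Dio.and ?_ (Dio.and ?_ (Dio.and ?_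
    (Dio.and ?_ ?_))))))
  · exact K2.Dio.forall_lt (fun j => D.dio_mem (ht j) (hz j)) _
  · exact K2.Dio.forall_lt (fun j => (D.dio_mem (hs j) (hx j)).and
      (dioK_eq (hz j) ((FnK.const D.α).mul ((hx j).pow _)))) _
  · exact K2.Dio.forall_lt (fun j => (D.dio_ord ((hz j).div (FnK.const (D.α ^ D.p ^ D.e)))).and
      (D.dio_T ((D.fn_tq (hz j)).div (FnK.const (tauQ D.β (D.p ^ D.e)))))) _
  · exact K2.Dio.forall_lt (fun j => (D.dio_ord ((hz (j + 1)).div
      ((FnK.const D.α).mul (hz j)))).and (D.dio_prodT (hz j) (hz j) (hz (j + 1)))) _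
  · exact (D.dio_ord ((hz _).div ((FnK.const D.α).mul (hz _)))).and
      (D.dio_prodT (hz _) (hz _) (hz _))
  · exact D.dio_ord ((hz 0).div (FnK.const (D.α ^ c₀)))
  · exact K2.Dio.forall_lt (fun j => (D.dio_ord (hz _)).and
      (D.dio_ord (((hz _).pow _).div (hz _)))) _
  · have h := D.dio_cpk (L := D.entsXF P κ k a z) (by
        intro f hf
        simp only [entsXF, List.mem_append, List.mem_cons, List.not_mem_nil, or_false,
          List.mem_map, List.mem_range] at hf
        rcases hf with (rfl | rfl) | ⟨j, _, rfl⟩ | ⟨j, _, rfl⟩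
        · exact D.fn_kap (hz _)
        · refine FnK.aeval (rename (Sum.inr : Fin M → Fin 0 ⊕ Fin M) P)
            (A := fun i v => Sum.elim (fun i : Fin 0 => (0 : K))
              (fun j : Fin M => D.dq κ (fun i => z i v) j) i) ?_
          intro i
          rcases i with i | i
          · exact i.elim0
          · exact D.fn_dq κ hz i
        · exact ((D.fn_bt (hz _)).pow 2).sub (FnK.const 1)
        · exact (ha j).sub ((D.fn_dq κ hz j).sub (D.fn_dq κ hz (k + j))))
    refine h.congr (fun v => ?_)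
    rw [entsXF_map]

/-- only finitely many entries matter -/
lemma ReadX.congr {M : ℕ} {P : MvPolynomial (Fin M) ℤ} {κ c₀ k : ℕ}
    {a t z s x a' t' z' s' x' : ℕ → K} (hkM : k + k ≤ M) (h0 : ∀ i < k, a i = a' i)
    (h1 : ∀ i < κ + 2 + M, t i = t' i ∧ z i = z' i)
    (h2 : ∀ i < κ + 2, s i = s' i ∧ x i = x' i) (hR : D.ReadX P κ c₀ k a t z s x) :
    D.ReadX P κ c₀ k a' t' z' s' x' := by
  obtain ⟨r1, r2, r3, r4, ⟨r5, r6⟩, r7, r9, r10⟩ := hR
  have qz : ∀ j < κ + 2 + M, z' j = z j := fun j hj => (h1 j hj).2.symm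
  refine ⟨?_, ?_, ?_, ?_, ⟨?_, ?_⟩, ?_, ?_, ?_⟩
  · intro i hi
    rw [← (h1 i hi).1, qz i hi]; exact r1 i hi
  · intro i hi
    rw [← (h2 i hi).1, ← (h2 i hi).2, qz i (by omega)]; exact r2 i hi
  · intro i hi
    rw [qz i (by omega)]; exact r3 i hi
  · intro i hi
    rw [qz i (by omega), qz (i + 1) (by omega)]; exact r4 i hi
  · rw [qz κ (by omega), qz (κ + 1) (by omega)]; exact r5
  · rw [qz κ (by omega), qz (κ + 1) (by omega), qz 0 (by omega)]; exact r6
  · rw [qz 0 (by omega)]; exact r7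
  · intro j hj
    rw [qz (κ + 2 + j) (by omega), qz (κ + 1) (by omega)]; exact r9 j hj
  · have e0 : ∀ j < M, D.dq κ z' j = D.dq κ z j := by
      intro j hj
      unfold dq
      rw [qz κ (by omega), qz (κ + 2 + j) (by omega)]
    have e4 : D.entsX P κ k a' z' = D.entsX P κ k a z := by
      unfold entsX
      rw [qz κ (by omega)]
      have e5 : (fun j : Fin M => D.dq κ z' j) = fun j : Fin M => D.dq κ z j := by
        funext j
        exact e0 j j.2
      have e6 : (List.range M).map (fun j => D.Bt (z' (κ + 2 + j)) ^ 2 - 1) =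
          (List.range M).map (fun j => D.Bt (z (κ + 2 + j)) ^ 2 - 1) := by
        refine List.map_congr_left (fun j hj => ?_)
        have := List.mem_range.1 hj
        rw [qz (κ + 2 + j) (by omega)]
      have e7 : (List.range k).map (fun i => a' i - (D.dq κ z' i - D.dq κ z' (k + i))) =
          (List.range k).map (fun i => a i - (D.dq κ z i - D.dq κ z (k + i))) := by
        refine List.map_congr_left (fun j hj => ?_)
        have := List.mem_range.1 hj
        rw [h0 j this, e0 j (by omega), e0 (k + j) (by omega)]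
      rw [e5, e6, e7]
    rw [e4]
    exact r10

end RD

end Vale.Agent.P027.T3
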