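import Mathlib
import Vale.Agent.P027.R3.H124.Forms3
import Vale.Agent.P027.R2.H124.MainT2

/-! The forms of the theorem for abstract data. -/

namespace Vale.Agent.P027.T3

open Vale.Agent.P027 MvPolynomial Module

/-- for every recursively enumerable set one polynomial for all `R` -/
def Form (p : ℕ) (ok : Set ℚ → Prop) : Prop :=
  ∀ (k : ℕ) (S : Set (Fin k → ℕ)), REPred (fun a => a ∈ S) →
    ∃ (m : ℕ) (F : MvPolynomial (Fin k ⊕ Fin k ⊕ Fin m) ℤ), ∀ R : Set ℚ,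
      (∀ (z : ℤ) (n : ℕ), (z : ℚ) / (p : ℚ) ^ n ∈ R) → ok R → ∀ a : Fin k → ℕ,
      (a ∈ S ↔ ∃ y : Fin m → ℚ, (∀ j, y j ∈ R) ∧
        aeval (Sum.elim (fun i => (a i : ℚ)) (Sum.elim (fun i => (p : ℚ) ^ a i) y)) F = 0)

variable {K : Type} [Field K] [Algebra ℚ K] (D : RD K)

theorem RD.form : Form D.p (fun R => ∀ t : K, (∀ j, D.b.repr t j ∈ R) → D.Adm t) := by
  intro k S hS
  obtain ⟨M, r, F, hF⟩ := D.main k S hS
  let φ : Fin (k + k) ⊕ Fin M ⊕ Fin r → Fin k ⊕ Fin k ⊕ Fin (M + r) :=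
    Sum.elim (Fin.addCases (fun i => Sum.inl i) (fun i => Sum.inr (Sum.inl i)))
      (Sum.elim (fun i => Sum.inr (Sum.inr (Fin.castAdd r i)))
        (fun i => Sum.inr (Sum.inr (Fin.natAdd M i))))
  have key : ∀ (a : Fin k → ℕ) (y : Fin (M + r) → ℚ),
      aeval (Sum.elim (fun i => (a i : ℚ)) (Sum.elim (fun i => (D.p : ℚ) ^ a i) y)) (rename φ F) =
      aeval (Sum.elim (fun i => ((Fin.append (fun i => (a i : ℤ))
        (fun i => (D.p : ℤ) ^ a i) i : ℤ) : ℚ))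
        (Sum.elim (fun i => y (Fin.castAdd r i)) (fun i => y (Fin.natAdd M i)))) F := by
    intro a y
    rw [aeval_rename]
    congr 2
    funext i
    rcases i with i | i | i
    · refine Fin.addCases (fun i => ?_) (fun i => ?_) i
      · simp only [φ, Function.comp_apply, Sum.elim_inl, Fin.addCases_left,
          Fin.append_left]
        push_cast; rfl
      · simp only [φ, Function.comp_apply, Sum.elim_inl, Sum.elim_inr, Fin.addCases_right,
          Fin.append_right]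
        push_cast; rfl
    · simp only [φ, Function.comp_apply, Sum.elim_inl, Sum.elim_inr]
    · simp only [φ, Function.comp_apply, Sum.elim_inr]
  refine ⟨M + r, rename φ F, fun R hR hok a => ?_⟩
  obtain ⟨h1, h2⟩ := hF a _ rfl
  constructor
  · intro ha
    obtain ⟨u, y, hu, h⟩ := h1 ha
    refine ⟨Fin.append u (fun j => (y j : ℚ)), fun j => ?_, ?_⟩
    · refine Fin.addCases (fun i => ?_) (fun i => ?_) j
      · rw [Fin.append_left]
        obtain ⟨x, l, hx⟩ := hu i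
        rw [hx]; exact hR x l
      · rw [Fin.append_right]
        simpa using hR (y i) 0
    · rw [key]
      simp only [Fin.append_left, Fin.append_right]
      exact h
  · rintro ⟨y, hy, h⟩
    rw [key] at h
    refine h2 _ _ (fun t ht => hok t (fun j => ?_)) h
    obtain ⟨i, hi⟩ := ht j
    rw [← hi]
    exact hy _

/-- one complete recursively enumerable set -/
theorem form_set : ∃ A : Set ℕ, REPred (fun a => a ∈ A) ∧ ¬ REPred (fun a => a ∉ A) ∧
    (∀ B : Set ℕ, REPred (fun n => n ∈ B) →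
      ∃ f : ℕ → ℕ, Computable f ∧ ∀ n, (n ∈ B ↔ f n ∈ A)) ∧
    ∀ (p : ℕ) (ok : Set ℚ → Prop), Form p ok →
      ∃ (m : ℕ) (F : MvPolynomial (Fin 1 ⊕ Fin 1 ⊕ Fin m) ℤ), ∀ R : Set ℚ,
      (∀ (z : ℤ) (n : ℕ), (z : ℚ) / (p : ℚ) ^ n ∈ R) → ok R → ∀ a : ℕ,
      (a ∈ A ↔ ∃ y : Fin m → ℚ, (∀ j, y j ∈ R) ∧
        aeval (Sum.elim (fun _ => (a : ℚ)) (Sum.elim (fun _ => (p : ℚ) ^ a) y)) F = 0) := by
  obtain ⟨P, hp, huniv⟩ := H434.universal
  refine ⟨{a | P a}, hp, ?_, fun B hB => ?_, fun p ok hform => ?_⟩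
  · intro h
    obtain ⟨q, hq, hqn⟩ := N1.halting
    obtain ⟨f, hf, hfq⟩ := huniv q hq
    apply hqn
    have h1 : REPred (fun n => ¬ P (f n)) := N1.comp_re h hf
    exact h1.of_eq (fun n => by rw [← hfq n])
  · obtain ⟨f, hf, hfB⟩ := huniv _ hB
    exact ⟨f, hf, hfB⟩
  · have hS : REPred (fun a : Fin 1 → ℕ => a ∈ {a : Fin 1 → ℕ | P (a 0)}) := by
      have h1 : Computable (fun a : Fin 1 → ℕ => a 0) :=
        (Primrec.fin_app.comp Primrec.id (Primrec.const 0)).to_comp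
      exact N1.comp_re hp h1
    obtain ⟨m, F, hF⟩ := hform 1 _ hS
    refine ⟨m, F, fun R hR1 hR2 a => ?_⟩
    have h := hF R hR1 hR2 (fun _ => a)
    simpa using h

/-- if one of the sets `R` is Diophantine over the rationals -/
theorem form_cond {p : ℕ} {ok : Set ℚ → Prop} (hform : Form p ok) (R : Set ℚ)
    (hR1 : ∀ (z : ℤ) (n : ℕ), (z : ℚ) / (p : ℚ) ^ n ∈ R) (hR2 : ok R)
    (hR : ∃ (l : ℕ) (g : MvPolynomial (Fin 1 ⊕ Fin l) ℤ), ∀ x : ℚ,
      (x ∈ R ↔ ∃ z : Fin l → ℚ, aeval (Sum.elim (fun _ => x) z) g = 0))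
    (k : ℕ) (S : Set (Fin k → ℕ)) (hS : REPred (fun a => a ∈ S)) :
    ∃ (r : ℕ) (F : MvPolynomial (Fin k ⊕ Fin k ⊕ Fin r) ℤ), ∀ a : Fin k → ℕ,
      (a ∈ S ↔ ∃ y : Fin r → ℚ,
        aeval (Sum.elim (fun i => (a i : ℚ)) (Sum.elim (fun i => (p : ℚ) ^ a i) y)) F = 0) := by
  obtain ⟨m, F, hF⟩ := hform k S hS
  obtain ⟨l, g, hg⟩ := hR
  -- unknowns `y j`, `z i j`
  let W : Type := Fin m ⊕ (Fin m × Fin l)
  let eq : Fin (Fintype.card W) ≃ W := (Fintype.equivFin W).symm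
  let F₁ : MvPolynomial (Fin k ⊕ Fin k ⊕ W) ℤ :=
    (rename (Sum.map id (Sum.map id Sum.inl)) F) ^ 2 +
    ∑ i : Fin m, (rename (Sum.elim (fun _ => Sum.inr (Sum.inr (Sum.inl i)))
      (fun j => Sum.inr (Sum.inr (Sum.inr (i, j))))) g) ^ 2
  refine ⟨Fintype.card W, rename (Sum.map id (Sum.map id eq.symm)) F₁, fun a => ?_⟩
  have ev : ∀ w : W → ℚ, aeval (Sum.elim (fun i => (a i : ℚ))
        (Sum.elim (fun i => (p : ℚ) ^ a i) w)) F₁ =
      (aeval (Sum.elim (fun i => (a i : ℚ)) (Sum.elim (fun i => (p : ℚ) ^ a i)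
        (fun i => w (Sum.inl i)))) F) ^ 2 + ∑ i : Fin m,
        (aeval (Sum.elim (fun _ => w (Sum.inl i)) (fun j => w (Sum.inr (i, j)))) g) ^ 2 := by
    intro w
    simp only [F₁, map_add, map_pow, map_sum, aeval_rename]
    congr 1
    · congr 2
      congr 1
      funext i
      rcases i with i | i | i <;> rfl
    · refine Finset.sum_congr rfl (fun i _ => ?_)
      congr 2
      congr 1
      funext j
      rcases j with j | j <;> rfl
  have hex : (∃ y : Fin (Fintype.card W) → ℚ,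
      aeval (Sum.elim (fun i => (a i : ℚ)) (Sum.elim (fun i => (p : ℚ) ^ a i) y))
        (rename (Sum.map id (Sum.map id eq.symm)) F₁) = 0) ↔
      ∃ w : W → ℚ, aeval (Sum.elim (fun i => (a i : ℚ))
        (Sum.elim (fun i => (p : ℚ) ^ a i) w)) F₁ = 0 := by
    have key : ∀ y : Fin (Fintype.card W) → ℚ,
        Sum.elim (fun i => (a i : ℚ)) (Sum.elim (fun i => (p : ℚ) ^ a i) y) ∘
          Sum.map id (Sum.map id eq.symm) =
          Sum.elim (fun i => (a i : ℚ)) (Sum.elim (fun i => (p : ℚ) ^ a i) (y ∘ eq.symm)) := by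
      intro y; funext i; rcases i with i | i | i <;> rfl
    simp only [aeval_rename, key]
    constructor
    · rintro ⟨y, hy⟩; exact ⟨_, hy⟩
    · rintro ⟨w, hw⟩
      refine ⟨w ∘ eq, ?_⟩
      have : (w ∘ eq) ∘ eq.symm = w := by funext i; simp
      rw [this]
      exact hw
  rw [hex, hF R hR1 hR2 a]
  constructor
  · rintro ⟨y, hy, h⟩
    choose z hz using fun i => (hg (y i)).1 (hy i)
    refine ⟨Sum.elim y (fun ij => z ij.1 ij.2), ?_⟩
    rw [ev]
    simp only [Sum.elim_inl, Sum.elim_inr]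
    rw [h, Finset.sum_eq_zero (fun i _ => by rw [hz i]; ring)]
    ring
  · rintro ⟨w, hw⟩
    rw [ev] at hw
    have h1 : 0 ≤ ∑ i : Fin m, (aeval (Sum.elim (fun _ => w (Sum.inl i))
        (fun j => w (Sum.inr (i, j)))) g) ^ 2 := Finset.sum_nonneg (fun i _ => sq_nonneg _)
    have h2 := sq_nonneg (aeval (Sum.elim (fun i => (a i : ℚ)) (Sum.elim (fun i => (p : ℚ) ^ a i)
        (fun i => w (Sum.inl i)))) F)
    have h3 := pow_eq_zero_iff (n := 2) (by norm_num) |>.1 (le_antisymm (by linarith) h2)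
    have h4 : ∑ i : Fin m, (aeval (Sum.elim (fun _ => w (Sum.inl i))
        (fun j => w (Sum.inr (i, j)))) g) ^ 2 = 0 := le_antisymm (by linarith) h1
    rw [Finset.sum_eq_zero_iff_of_nonneg (fun i _ => sq_nonneg _)] at h4
    refine ⟨_, fun i => ?_, h3⟩
    have h5 := pow_eq_zero_iff (n := 2) (by norm_num) |>.1 (h4 i (Finset.mem_univ i))
    exact (hg _).2 ⟨_, h5⟩

end Vale.Agent.P027.T3
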