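import Mathlib
import Vale.Agent.P027.R3.H124.Main3
import Vale.Agent.P027.R3.H124.FldAll
import Vale.Agent.P027.R3.H250.Inst

/-! The forms of the theorem with two sorts of unknowns. -/

namespace Vale.Agent.P027.T3

open Vale.Agent.P027 MvPolynomial Module

/-- for every recursively enumerable set one polynomial for all `R` and `R'` -/
def Form2 (p : ℕ) (ok : Set ℚ → Prop) : Prop :=
  ∀ (k : ℕ) (S : Set (Fin k → ℕ)), REPred (fun a => a ∈ S) →
    ∃ (m r : ℕ) (F : MvPolynomial (Fin k ⊕ Fin k ⊕ Fin m ⊕ Fin r) ℤ), ∀ R R' : Set ℚ,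
      (∀ (z : ℤ) (n : ℕ), (z : ℚ) / (p : ℚ) ^ n ∈ R) → ok R → (∀ z : ℤ, (z : ℚ) ∈ R') →
      ∀ a : Fin k → ℕ,
      (a ∈ S ↔ ∃ (u : Fin m → ℚ) (y : Fin r → ℚ), (∀ i, u i ∈ R) ∧ (∀ j, y j ∈ R') ∧
        aeval (Sum.elim (fun i => (a i : ℚ)) (Sum.elim (fun i => (p : ℚ) ^ a i)
          (Sum.elim u y))) F = 0)

variable {K : Type} [Field K] [Algebra ℚ K] (D : RD K)

theorem RD.form2 : Form2 D.p (fun R => ∀ t : K, (∀ j, D.b.repr t j ∈ R) → D.Adm t) := by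
  intro k S hS
  obtain ⟨M, r, F, hF⟩ := D.main k S hS
  let φ : Fin (k + k) ⊕ Fin M ⊕ Fin r → Fin k ⊕ Fin k ⊕ Fin M ⊕ Fin r :=
    Sum.elim (Fin.addCases (fun i => Sum.inl i) (fun i => Sum.inr (Sum.inl i)))
      (fun i => Sum.inr (Sum.inr i))
  have key : ∀ (a : Fin k → ℕ) (u : Fin M → ℚ) (y : Fin r → ℚ),
      aeval (Sum.elim (fun i => (a i : ℚ)) (Sum.elim (fun i => (D.p : ℚ) ^ a i)
        (Sum.elim u y))) (rename φ F) =
      aeval (Sum.elim (fun i => ((Fin.append (fun i => (a i : ℤ))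
        (fun i => (D.p : ℤ) ^ a i) i : ℤ) : ℚ)) (Sum.elim u y)) F := by
    intro a u y
    rw [aeval_rename]
    congr 2
    funext i
    rcases i with i | i
    · refine Fin.addCases (fun i => ?_) (fun i => ?_) i
      · simp only [φ, Function.comp_apply, Sum.elim_inl, Fin.addCases_left,
          Fin.append_left]
        push_cast; rfl
      · simp only [φ, Function.comp_apply, Sum.elim_inl, Sum.elim_inr, Fin.addCases_right,
          Fin.append_right]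
        push_cast; rfl
    · simp only [φ, Function.comp_apply, Sum.elim_inr]
  refine ⟨M, r, rename φ F, fun R R' hR hok hR' a => ?_⟩
  obtain ⟨h1, h2⟩ := hF a _ rfl
  constructor
  · intro ha
    obtain ⟨u, y, hu, h⟩ := h1 ha
    refine ⟨u, fun j => (y j : ℚ), fun i => ?_, fun j => hR' _, ?_⟩
    · obtain ⟨x, l, hx⟩ := hu i
      rw [hx]; exact hR x l
    · rw [key]
      exact h
  · rintro ⟨u, y, hu, -, h⟩
    rw [key] at h
    refine h2 _ _ (fun t ht => hok t (fun j => ?_)) h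
    obtain ⟨i, hi⟩ := ht j
    rw [← hi]
    exact hu _

/-- one complete recursively enumerable set -/
theorem form2_set : ∃ A : Set ℕ, REPred (fun a => a ∈ A) ∧ ¬ REPred (fun a => a ∉ A) ∧
    (∀ B : Set ℕ, REPred (fun n => n ∈ B) →
      ∃ f : ℕ → ℕ, Computable f ∧ ∀ n, (n ∈ B ↔ f n ∈ A)) ∧
    ∀ (p : ℕ) (ok : Set ℚ → Prop), Form2 p ok →
      ∃ (m r : ℕ) (F : MvPolynomial (Fin 1 ⊕ Fin 1 ⊕ Fin m ⊕ Fin r) ℤ), ∀ R R' : Set ℚ,
      (∀ (z : ℤ) (n : ℕ), (z : ℚ) / (p : ℚ) ^ n ∈ R) → ok R → (∀ z : ℤ, (z : ℚ) ∈ R') →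
      ∀ a : ℕ,
      (a ∈ A ↔ ∃ (u : Fin m → ℚ) (y : Fin r → ℚ), (∀ i, u i ∈ R) ∧ (∀ j, y j ∈ R') ∧
        aeval (Sum.elim (fun _ => (a : ℚ)) (Sum.elim (fun _ => (p : ℚ) ^ a)
          (Sum.elim u y))) F = 0) := by
  obtain ⟨P, hp, huniv⟩ := H434.universal
  refine ⟨{a | P a}, hp, ?_, fun B hB => ?_, fun p ok hform => ?_⟩
  · intro h
    obtain ⟨q, hq, hqn⟩ := N1.halting
    obtain ⟨f, hf, hfq⟩ := huniv q hq
    apply hqn
    have h1 : REPred (fun n => ¬ P (f n)) := N1.comp_re h hf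
    exact h1.of_eq (fun n => by rw [← hfq n])
  · obtain ⟨f, hf, hfB⟩ := huniv _ hB
    exact ⟨f, hf, hfB⟩
  · have hS : REPred (fun a : Fin 1 → ℕ => a ∈ {a : Fin 1 → ℕ | P (a 0)}) := by
      have h1 : Computable (fun a : Fin 1 → ℕ => a 0) :=
        (Primrec.fin_app.comp Primrec.id (Primrec.const 0)).to_comp
      exact N1.comp_re hp h1
    obtain ⟨m, r, F, hF⟩ := hform 1 _ hS
    refine ⟨m, r, F, fun R R' hR1 hR2 hR3 a => ?_⟩
    have h := hF R R' hR1 hR2 hR3 (fun _ => a)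
    simpa using h

/-- if one of the sets `R` is Diophantine over the rationals -/
theorem form2_cond {p : ℕ} {ok : Set ℚ → Prop} (hform : Form2 p ok) (R : Set ℚ)
    (hR1 : ∀ (z : ℤ) (n : ℕ), (z : ℚ) / (p : ℚ) ^ n ∈ R) (hR2 : ok R)
    (hR : ∃ (l : ℕ) (g : MvPolynomial (Fin 1 ⊕ Fin l) ℤ), ∀ x : ℚ,
      (x ∈ R ↔ ∃ z : Fin l → ℚ, aeval (Sum.elim (fun _ => x) z) g = 0))
    (k : ℕ) (S : Set (Fin k → ℕ)) (hS : REPred (fun a => a ∈ S)) :
    ∃ (r : ℕ) (F : MvPolynomial (Fin k ⊕ Fin k ⊕ Fin r) ℤ), ∀ a : Fin k → ℕ,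
      (a ∈ S ↔ ∃ y : Fin r → ℚ,
        aeval (Sum.elim (fun i => (a i : ℚ)) (Sum.elim (fun i => (p : ℚ) ^ a i) y)) F = 0) := by
  have hform1 : Form p ok := by
    intro k S hS
    obtain ⟨m, r, F, hF⟩ := hform k S hS
    let φ : Fin k ⊕ Fin k ⊕ Fin m ⊕ Fin r → Fin k ⊕ Fin k ⊕ Fin (m + r) :=
      Sum.map id (Sum.map id (Sum.elim (fun i => Fin.castAdd r i) (fun i => Fin.natAdd m i)))
    refine ⟨m + r, rename φ F, fun R h1 h2 a => ?_⟩
    rw [hF R R h1 h2 (fun z => by simpa using h1 z 0) a]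
    have key : ∀ (y : Fin (m + r) → ℚ),
        Sum.elim (fun i => (a i : ℚ)) (Sum.elim (fun i => (p : ℚ) ^ a i) y) ∘ φ =
        Sum.elim (fun i => (a i : ℚ)) (Sum.elim (fun i => (p : ℚ) ^ a i)
          (Sum.elim (fun i => y (Fin.castAdd r i)) (fun i => y (Fin.natAdd m i)))) := by
      intro y; funext i; rcases i with i | i | i | i <;> rfl
    constructor
    · rintro ⟨u, y, hu, hy, h⟩
      refine ⟨Fin.append u y, fun j => ?_, ?_⟩
      · refine Fin.addCases (fun i => ?_) (fun i => ?_) j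
        · rw [Fin.append_left]; exact hu i
        · rw [Fin.append_right]; exact hy i
      · rw [aeval_rename, key]
        simp only [Fin.append_left, Fin.append_right]
        exact h
    · rintro ⟨y, hy, h⟩
      rw [aeval_rename, key] at h
      exact ⟨_, _, fun i => hy _, fun j => hy _, h⟩
  exact form_cond hform1 R hR1 hR2 hR k S hS

/-- the two-sorted form for cyclotomic fields of three-power conductor -/
theorem form2_cyc (κ p : ℕ) (hκ : 2 ≤ κ) (hp : p.Prime) (h3 : p ≡ 1 [MOD 3 ^ κ])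
    (h12 : p % 12 = 7) (P : Finset ℕ) :
    Form2 p (fun R => ∀ x ∈ R, ∀ r : ℕ, r.Prime → r ∣ x.den →
      r = p ∨ r ∈ P ∨ ¬ r ≡ 1 [MOD 3 ^ κ]) := by
  have := Fact.mk hp
  obtain ⟨D, hm, hint⟩ := exists_fld κ p hκ h3
  obtain ⟨A, hA, hadm⟩ := exists_RD D h12 hm (fun r => r ≡ 1 [MOD 3 ^ κ]) hint P
  have h := A.form2
  rw [hA] at h
  intro k S hS
  obtain ⟨m, r, F, hF⟩ := h k S hS
  refine ⟨m, r, F, fun R R' hR hok hR' => hF R R' hR (fun t ht => hadm t (fun j r hr hrd => ?_)) hR'⟩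
  exact hok _ (ht j) r hr hrd

end Vale.Agent.P027.T3
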