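import Vale.Agent.P027.R3.H124.SpecX

set_option linter.all false

/-! The reading formula with rational inputs: soundness. -/

namespace Vale.Agent.P027.T3

open Vale.Agent.P027 MvPolynomial Module

variable {K : Type} [Field K] [Algebra ℚ K] (D : RD K)

namespace RD

theorem readX_ladder {M : ℕ} (P : MvPolynomial (Fin M) ℤ) {κ c₀ k : ℕ}
    (a t z s x : ℕ → K) (ht : ∀ i < κ + 2 + M, D.Adm (t i)) (hs : ∀ i < κ + 2, D.Adm (s i))
    (h : D.ReadX P κ c₀ k a t z s x) :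
    ∃ γ W : ℕ, D.u0 ∣ W ∧ D.e ≤ W ∧ D.p ^ W = γ ^ (2 ^ κ) ∧ 1 ≤ γ ∧ c₀ ≤ γ ∧
      z κ = D.α ^ ((D.p ^ W : ℕ) : ℤ) ∧ z (κ + 1) = D.α ^ ((D.p ^ W * γ : ℕ) : ℤ) := by
  obtain ⟨hmem, hcong, hpow, hchain, ⟨hB1, hB2⟩, hc, hY, hCP⟩ := h
  have hp2 := D.hp.two_le
  -- exponents
  have hE : ∀ i, ∃ E : ℤ, i < κ + 2 + M → z i = D.α ^ E := by
    intro i
    by_cases hi : i < κ + 2 + M
    · obtain ⟨j, hj⟩ := D.mem_sound _ _ (ht i hi) (hmem i hi)
      exact ⟨j, fun _ => hj⟩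
    · exact ⟨0, fun h => absurd h hi⟩
  choose E hE using hE
  -- exponents of the ladder
  have hw : ∀ i, ∃ w : ℕ, i < κ + 2 → D.u0 ∣ w ∧ D.e ≤ w ∧ z i = D.α ^ ((D.p ^ w : ℕ) : ℤ) := by
    intro i
    by_cases hi : i < κ + 2
    · have hzi := hE i (by omega)
      obtain ⟨h1, h2⟩ := hpow i hi
      rw [hzi, ← zpow_natCast, ← zpow_sub₀ D.hα, D.ord_zpow] at h1
      have hpe : 1 ≤ D.p ^ D.e := Nat.one_le_pow _ _ D.hp.pos
      obtain ⟨N, hN⟩ : ∃ N : ℕ, E i = N := ⟨(E i).toNat, by omega⟩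
      rw [hzi, hN] at h2
      have hN1 : 1 ≤ N := by omega
      obtain ⟨w, hw⟩ := D.pow_test hN1 h2
      refine ⟨w, fun _ => ⟨?_, ?_, ?_⟩⟩
      · obtain ⟨h3, h4⟩ := hcong i hi
        obtain ⟨j, hj⟩ := D.mem_sound _ _ (hs i hi) h3
        rw [hzi, hj, ← zpow_natCast, ← zpow_mul, mul_comm D.α, ← zpow_add_one₀ D.hα] at h4
        have h5 := D.zpow_inj h4
        rw [hN, hw] at h5
        rw [← TD.dvd_exp_iff hp2, ← Int.natCast_dvd_natCast]
        refine ⟨j, ?_⟩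
        have h6 : 1 ≤ D.p ^ w := Nat.one_le_pow _ _ D.hp.pos
        rw [Nat.cast_sub h6]
        push_cast at h5 ⊢
        linarith
      · have h3 : D.p ^ D.e ≤ D.p ^ w := by
          rw [← hw]
          omega
        exact (Nat.pow_le_pow_iff_right (by omega)).1 h3
      · rw [hzi, hN, hw]
    · exact ⟨0, fun h => absurd h hi⟩
  choose w hw using hw
  have hlt : ∀ {i j : ℕ}, i < κ + 2 → j < κ + 2 → D.Ord (z j / (D.α * z i)) →
      ∃ u, 1 ≤ u ∧ w j = w i + u := by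
    intro i j hi hj h
    rw [(hw i hi).2.2, (hw j hj).2.2, mul_comm D.α, ← zpow_add_one₀ D.hα, ← zpow_sub₀ D.hα,
      D.ord_zpow] at h
    have h1 : D.p ^ w i < D.p ^ w j := by
      have : ((D.p ^ w i : ℕ) : ℤ) < ((D.p ^ w j : ℕ) : ℤ) := by linarith
      exact_mod_cast this
    have h2 := (Nat.pow_lt_pow_iff_right (by omega)).1 h1
    exact ⟨w j - w i, by omega, by omega⟩
  have hchk : ∀ {i l j : ℕ}, i < κ + 2 → l < κ + 2 → j < κ + 2 → 1 ≤ w l →
      D.Ord (z j / (D.α * z i)) → D.ProdT (z i) (z l) (z j) → w j = w i + w l := by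
    intro i l j hi hl hj h1 h2 h3
    obtain ⟨u, hu1, hu⟩ := hlt hi hj h2
    have hdu : D.u0 ∣ u := by
      have h4 := (hw j hj).1
      rw [hu] at h4
      exact (Nat.dvd_add_right (hw i hi).1).1 h4
    have h5 := (hw j hj).2.2
    rw [hu] at h5
    rw [(hw i hi).2.2, (hw l hl).2.2, h5] at h3
    have := (D.prodT_iff (hw i hi).1 (hw l hl).1 hdu (hw i hi).2.1 h1 hu1).1 h3
    omega
  have hwpos : ∀ i < κ + 2, 1 ≤ w i := fun i hi => le_trans D.he (hw i hi).2.1
  have hstep : ∀ i < κ, w (i + 1) = 2 * w i := by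
    intro i hi
    have := hchk (i := i) (l := i) (j := i + 1) (by omega) (by omega) (by omega)
      (hwpos i (by omega)) (hchain i hi).1 (hchain i hi).2
    omega
  have hwj : ∀ j ≤ κ, w j = 2 ^ j * w 0 := by
    intro j
    induction j with
    | zero => intro _; simp
    | succ j ih =>
      intro hj
      rw [hstep j (by omega), ih (by omega), pow_succ]
      ring
  have hwB : w (κ + 1) = w κ + w 0 := hchk (i := κ) (l := 0) (j := κ + 1) (by omega) (by omega)
    (by omega) (hwpos 0 (by omega)) hB1 hB2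
  obtain ⟨γ, hγ⟩ : ∃ γ : ℕ, γ = D.p ^ w 0 := ⟨_, rfl⟩
  obtain ⟨h, hh⟩ : ∃ h : ℕ, h = D.p ^ w κ := ⟨_, rfl⟩
  have hhγ : h = γ ^ (2 ^ κ) := by
    rw [hh, hγ, hwj κ le_rfl, ← pow_mul]
    ring_nf
  have hBγ : D.p ^ w (κ + 1) = h * γ := by
    rw [hwB, hh, hγ, ← pow_add]
  have hγpos : 1 ≤ γ := by rw [hγ]; exact Nat.one_le_pow _ _ D.hp.pos
  have hhpos : 1 ≤ h := by rw [hh]; exact Nat.one_le_pow _ _ D.hp.pos
  have hz0 : z 0 = D.α ^ (γ : ℤ) := by rw [hγ]; exact (hw 0 (by omega)).2.2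
  have hzκ : z κ = D.α ^ (h : ℤ) := by rw [hh]; exact (hw κ (by omega)).2.2
  have hzB : z (κ + 1) = D.α ^ ((h * γ : ℕ) : ℤ) := by
    rw [← hBγ]; exact (hw (κ + 1) (by omega)).2.2
  -- bounds for the parameters
  have hγC : c₀ ≤ γ := by
    rw [hz0, ← zpow_natCast, ← zpow_sub₀ D.hα, D.ord_zpow] at hc
    omega
  exact ⟨γ, w κ, (hw κ (by omega)).1, (hw κ (by omega)).2.1, by rw [← hh]; exact hhγ, hγpos,
    hγC, (hw κ (by omega)).2.2, by rw [← hh]; exact hzB⟩

theorem readX_sound (h2 : D.Cpk2) : D.ReadXSound := by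
  intro M P C d κ c₀ k hCd hd hκ hc₀ hkM a t z s x ht hs hread
  obtain ⟨γ, W, hdW, heW, hpW, hγpos, hγC, hzκ, hzB⟩ := D.readX_ladder P _ t z s x ht hs hread
  obtain ⟨hmem, hcong, hpow, hchain, ⟨hB1, hB2⟩, hc, hY, hCP⟩ := hread
  have hp2 := D.hp.two_le
  obtain ⟨h, hh⟩ : ∃ h : ℕ, h = D.p ^ W := ⟨_, rfl⟩
  rw [← hh] at hzκ hzB hpW
  have hhγ : h = γ ^ (2 ^ κ) := hpW
  have hhpos : 1 ≤ h := by rw [hh]; exact Nat.one_le_pow _ _ D.hp.pos
  have hE : ∀ i, ∃ E : ℤ, i < κ + 2 + M → z i = D.α ^ E := by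
    intro i
    by_cases hi : i < κ + 2 + M
    · obtain ⟨j, hj⟩ := D.mem_sound _ _ (ht i hi) (hmem i hi)
      exact ⟨j, fun _ => hj⟩
    · exact ⟨0, fun h => absurd h hi⟩
  choose E hE using hE
  -- the captured place
  obtain ⟨q, hq, Q, hQp, hqQ, hall2⟩ := h2 _ hCP
  obtain ⟨hqp, hqne⟩ := D.good_prime q hq
  have hall : ∀ x : D.O, (x : K) ∈ D.entsX P κ k (fun i => algebraMap ℚ K (a i)) z → x ∈ Q := by
    intro x hx
    refine hall2 _ hx 1 (fun h => hqp.one_lt.ne' (Nat.dvd_one.1 h)) x ?_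
    rw [Nat.cast_one, one_mul]
  obtain ⟨u, hu⟩ : ∃ u : D.O, (u : K) = D.β := ⟨⟨D.β, D.hβO⟩, rfl⟩
  obtain ⟨u', hu'⟩ : ∃ u : D.O, (u : K) = D.β⁻¹ := ⟨⟨D.β⁻¹, D.hβO'⟩, rfl⟩
  have huu : u * u' = 1 := by
    apply Subtype.ext
    push_cast
    rw [hu, hu', mul_inv_cancel₀ D.hβ]
  have hbκ : D.Bt (z κ) = D.β ^ h := by rw [hzκ, D.bt_nat]
  have hsum : ∑ i ∈ Finset.range D.p, ((u ^ 2) ^ D.p ^ W) ^ i ∈ Q := by
    have h1 : (u' ^ h) ^ (D.p - 1) * ∑ i ∈ Finset.range D.p, ((u ^ 2) ^ D.p ^ W) ^ i ∈ Q := by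
      apply hall
      have e1 : (((u' ^ h) ^ (D.p - 1) * ∑ i ∈ Finset.range D.p, ((u ^ 2) ^ D.p ^ W) ^ i :
          D.O) : K) = D.kap (z κ) := by
        unfold kap
        push_cast
        rw [hu, hu', hbκ, ← hh, inv_pow, inv_pow, ← pow_mul D.β 2 h, ← pow_mul D.β h 2,
          mul_comm 2 h]
      rw [e1]
      simp [entsX]
    rcases hQp.mem_or_mem h1 with h2 | h2
    · exfalso
      apply hQp.ne_top
      rw [Ideal.eq_top_iff_one]
      have h3 : (u ^ h) ^ (D.p - 1) * (u' ^ h) ^ (D.p - 1) = 1 := by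
        rw [← mul_pow, ← mul_pow, huu, one_pow, one_pow]
      rw [← h3]
      exact Q.mul_mem_left _ h2
    · exact h2
  obtain ⟨B, hB⟩ : ∃ B, B = u ^ 2 := ⟨_, rfl⟩
  rw [← hB] at hsum
  have hBK : (B : K) = D.β ^ 2 := by rw [hB]; push_cast; rw [hu]
  obtain ⟨g, hg⟩ : ∃ g : ℕ, g = D.p ^ (W + 1) := ⟨_, rfl⟩
  have hord : orderOf (Ideal.Quotient.mk Q B) = g := by
    rw [hg]; exact order_eq D.hp hqp hqne hqQ hsum
  have hgh : g = D.p * h := by rw [hg, hh, pow_succ, mul_comm]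
  have hgpos : 1 ≤ g := by rw [hg]; exact Nat.one_le_pow _ _ D.hp.pos
  have hpow1 : (Ideal.Quotient.mk Q B) ^ g = 1 := by rw [← hord]; exact pow_orderOf_eq_one _
  -- coded integers
  have hcode : ∀ j : ℕ, ∃ X : ℕ, j < M → X ≤ γ ∧ D.Bt (z (κ + 2 + j)) ^ 2 = (D.β ^ 2) ^ (g * X) ∧
      z (κ + 2 + j) = D.α ^ ((g * X : ℕ) : ℤ) := by
    intro j
    by_cases hj : j < M
    · have hzj := hE (κ + 2 + j) (by omega)
      obtain ⟨h1, h2⟩ := hY j hj
      rw [hzj, D.ord_zpow] at h1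
      obtain ⟨N, hN⟩ : ∃ N : ℕ, E (κ + 2 + j) = N := ⟨(E (κ + 2 + j)).toNat, by omega⟩
      rw [hN] at hzj
      rw [hzj, hzB, ← zpow_natCast, ← zpow_mul, ← zpow_sub₀ D.hα, D.ord_zpow] at h2
      have h3 : B ^ N - 1 ∈ Q := by
        apply hall
        have e1 : ((B ^ N - 1 : D.O) : K) = D.Bt (z (κ + 2 + j)) ^ 2 - 1 := by
          push_cast
          rw [hBK, hzj, D.bt_nat, ← pow_mul, ← pow_mul, mul_comm]
        rw [e1]
        simp only [entsX, List.mem_append, List.mem_map, List.mem_range]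
        exact Or.inr (Or.inl ⟨j, hj, rfl⟩)
      have h4 : g ∣ N := by
        rw [← hord]
        apply orderOf_dvd_of_pow_eq_one
        rw [← Ideal.Quotient.eq_zero_iff_mem, map_sub, map_pow, map_one] at h3
        exact sub_eq_zero.1 h3
      obtain ⟨X, hX⟩ := h4
      refine ⟨X, fun _ => ⟨?_, ?_, by rw [hzj, ← hX]⟩⟩
      · have h5 : g * X ≤ g * γ := by
          rw [← hX, hgh]
          have h6 : ((N : ℕ) : ℤ) ≤ ((h * γ : ℕ) : ℤ) * (D.p : ℕ) := by linarith
          have h7 : N ≤ h * γ * D.p := by exact_mod_cast h6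
          calc N ≤ h * γ * D.p := h7
            _ = D.p * h * γ := by ring
        exact Nat.le_of_mul_le_mul_left h5 (by omega)
      · rw [hzj, D.bt_nat, ← hX, ← pow_mul, ← pow_mul, mul_comm]
    · exact ⟨0, fun h => absurd h hj⟩
  choose X hX0 using hcode
  have hXγ : ∀ j < M, X j ≤ γ := fun j hj => (hX0 j hj).1
  have hX : ∀ j < M, D.Bt (z (κ + 2 + j)) ^ 2 = (D.β ^ 2) ^ (g * X j) :=
    fun j hj => (hX0 j hj).2.1
  have hXz : ∀ j < M, z (κ + 2 + j) = D.α ^ ((g * X j : ℕ) : ℤ) := fun j hj => (hX0 j hj).2.2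
  -- the quotients
  have hquo : ∀ j < M, ((∑ i ∈ Finset.range (X j), (B ^ g) ^ i : D.O) : K) = D.dq κ z j := by
    intro j hj
    unfold dq
    push_cast
    have h2 : (D.β ^ 2) ^ g ≠ 1 := D.hβ1 g hgpos
    have h3 : (D.Bt (z κ) ^ 2) ^ D.p = (D.β ^ 2) ^ g := by
      rw [hbκ, hgh, ← pow_mul, ← pow_mul, ← pow_mul]
      congr 1
      ring
    rw [hBK, geom_sum_eq h2, hX j hj, h3, pow_mul]
  have hmod : ∀ j, Ideal.Quotient.mk Q (∑ i ∈ Finset.range (X j), (B ^ g) ^ i) = (X j : ℕ) := by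
    intro j
    exact geom_cong hpow1 _
  -- the size of the prime
  obtain ⟨f, hf1, hfn, hfrob⟩ := D.frob q hq Q hQp hqQ
  have hlt1 : g < q ^ f := by
    rw [← hord]
    exact order_lt hqp hf1 (by rw [hord]; omega) (hfrob B)
  have hlt2 : γ ^ (d + 1) < q := by
    by_contra hcon
    have h3 : q ≤ γ ^ (d + 1) := by omega
    have h4 : q ^ D.n ≤ γ ^ (2 ^ κ) := by
      calc q ^ D.n ≤ (γ ^ (d + 1)) ^ D.n := Nat.pow_le_pow_left h3 _
        _ = γ ^ (D.n * (d + 1)) := by rw [← pow_mul]; ring_nf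
        _ ≤ γ ^ (2 ^ κ) := Nat.pow_le_pow_right hγpos hκ
    have h5 : q ^ f ≤ q ^ D.n := Nat.pow_le_pow_right hqp.pos hfn
    have h6 : h ≤ g := by rw [hgh]; exact Nat.le_mul_of_pos_left _ D.hp.pos
    rw [← hhγ] at h4
    omega
  refine ⟨W, X, hdW, heW, by rw [← hh]; exact hzκ,
    fun j hj => by rw [hXz j hj, hg], ?_, ?_⟩
  · have hcongr : (q : ℤ) ∣ eval (fun j : Fin M => (X j : ℤ)) P := by
      let A : Fin M → D.O := fun j => ∑ i ∈ Finset.range (X j), (B ^ g) ^ i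
      have h1 : aeval A P ∈ Q := by
        apply hall
        have e1 : ((aeval A P : D.O) : K) = aeval (fun j : Fin M => D.dq κ z j) P := by
          have e2 := comp_aeval_apply (f := A) (φ := D.O.subtype.toIntAlgHom) P
          rw [RingHom.toIntAlgHom_apply] at e2
          rw [show ((aeval A P : D.O) : K) = D.O.subtype (aeval A P) from rfl, e2]
          congr 2
          funext j
          simp only [A, RingHom.toIntAlgHom_apply, Subring.coe_subtype]
          exact hquo j j.2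
        rw [e1]
        simp [entsX]
      have h2 : ((eval (fun j : Fin M => (X j : ℤ)) P : ℤ) : D.O ⧸ Q) = 0 := by
        rw [← T2.aeval_intCast, ← Ideal.Quotient.eq_zero_iff_mem.2 h1]
        have e2 := comp_aeval_apply (f := A) (φ := (Ideal.Quotient.mk Q).toIntAlgHom) P
        rw [RingHom.toIntAlgHom_apply] at e2
        rw [e2]
        congr 2
        funext j
        simp only [A, RingHom.toIntAlgHom_apply]
        rw [hmod]
        push_cast
        rfl
      apply int_dvd hqp hqQ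
      rw [← Ideal.Quotient.eq_zero_iff_mem, map_intCast]
      exact h2
    -- the bound
    have hb := hCd γ hγpos (fun j : Fin M => (X j : ℤ)) (by
        intro i
        rw [abs_of_nonneg (by positivity)]
        exact_mod_cast hXγ i i.2)
    have hlt3 : C * γ ^ d < q := by
      have h1 : C * γ ^ d < γ ^ (d + 1) := by
        calc C * γ ^ d < γ * γ ^ d := Nat.mul_lt_mul_of_pos_right (by omega) (by positivity)
          _ = γ ^ (d + 1) := by rw [pow_succ, mul_comm]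
      omega
    apply Int.eq_zero_of_abs_lt_dvd hcongr
    calc |eval (fun j : Fin M => (X j : ℤ)) P| ≤ C * ((γ : ℕ) : ℤ) ^ d := hb
      _ < q := by exact_mod_cast hlt3
  · intro j hj hH i hi
    have hGγ : X j ≤ γ := hXγ j hj
    obtain ⟨hn, hden⟩ := hH i hi
    have hnγ : (a i).num.natAbs ≤ γ := le_trans hn hGγ
    have hdγ : (a i).den ≤ γ := le_trans hden hGγ
    have hγ3 : 3 ≤ γ := by omega
    have hbig : γ * γ + γ < q := by
      have h1 : γ ^ 3 ≤ γ ^ (d + 1) := Nat.pow_le_pow_right hγpos (by omega)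
      have h2 : γ * γ + γ ≤ γ ^ 3 := by nlinarith
      omega
    have hnd : ¬ q ∣ (a i).den := by
      intro h
      have := Nat.le_of_dvd (a i).pos h
      nlinarith
    have hi2 : k + i < M := by omega
    have hi1 : i < M := by omega
    obtain ⟨y, hy⟩ : ∃ y : D.O, y = ((a i).num : D.O) - ((a i).den : D.O) *
        (∑ l ∈ Finset.range (X i), (B ^ g) ^ l - ∑ l ∈ Finset.range (X (k + i)), (B ^ g) ^ l) :=
      ⟨_, rfl⟩
    have hyQ : y ∈ Q := by
      refine hall2 (algebraMap ℚ K (a i) - (D.dq κ z i - D.dq κ z (k + i))) ?_ (a i).den hnd y ?_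
      · simp only [entsX, List.mem_append, List.mem_map, List.mem_range]
        exact Or.inr (Or.inr ⟨i, hi, rfl⟩)
      · rw [hy, ← hquo i hi1, ← hquo (k + i) hi2]
        have e1 : ((a i).den : K) * algebraMap ℚ K (a i) = ((a i).num : K) := by
          have e2 : ((a i).den : ℚ) * a i = (a i).num := by
            rw [mul_comm]; exact Rat.mul_den_eq_num _
          have e3 := congrArg (algebraMap ℚ K) e2
          rw [map_mul, map_natCast, map_intCast] at e3
          exact e3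
        push_cast
        rw [← e1]
        ring
    have hdvd : (q : ℤ) ∣ (a i).num - (a i).den * ((X i : ℤ) - X (k + i)) := by
      apply int_dvd hqp hqQ
      rw [← Ideal.Quotient.eq_zero_iff_mem] at hyQ ⊢
      rw [hy] at hyQ
      rw [map_sub, map_mul, map_sub, hmod, hmod, map_intCast, map_natCast] at hyQ
      rw [map_intCast]
      push_cast
      exact hyQ
    have hzero := Int.eq_zero_of_abs_lt_dvd hdvd (by
      have h1 : |(a i).num| ≤ γ := by
        rw [Int.abs_eq_natAbs]; exact_mod_cast hnγ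
      have h2 : |((a i).den : ℤ) * ((X i : ℤ) - X (k + i))| ≤ γ * γ := by
        rw [abs_mul]
        refine mul_le_mul ?_ ?_ (abs_nonneg _) (by positivity)
        · rw [abs_of_nonneg (by positivity)]; exact_mod_cast hdγ
        · have h3 := hXγ i hi1
          have h4 := hXγ (k + i) hi2
          rw [abs_le]
          constructor <;> omega
      calc |(a i).num - (a i).den * ((X i : ℤ) - X (k + i))|
          ≤ |(a i).num| + |((a i).den : ℤ) * ((X i : ℤ) - X (k + i))| := abs_sub _ _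
        _ ≤ γ + γ * γ := add_le_add h1 h2
        _ < q := by
          have : ((γ * γ + γ : ℕ) : ℤ) < q := by exact_mod_cast hbig
          push_cast at this
          linarith)
    have h1 : ((a i).num : ℚ) = (a i).den * ((X i : ℚ) - X (k + i)) := by
      have h2 : (a i).num = (a i).den * ((X i : ℤ) - X (k + i)) := by linarith
      exact_mod_cast congrArg (Int.cast : ℤ → ℚ) h2
    have h3 : ((a i).den : ℚ) ≠ 0 := by exact_mod_cast (a i).den_nz
    rw [← Rat.num_div_den (a i), h1, mul_div_assoc, mul_comm, div_mul_cancel₀ _ h3]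

end RD

end Vale.Agent.P027.T3
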