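import Vale.Agent.P027.R3.H18.Link
import Vale.Agent.P027.R3.H124.Main3

set_option linter.all false

/-! The reading formula whose inputs are rational numbers: definitions. -/

namespace Vale.Agent.P027.T3

open Vale.Agent.P027 MvPolynomial Module

/-- the form of the height bound -/
def psi {F : Type} [CommRing F] (m t : ℕ) (x : F) : F :=
  x ^ (4 * t) + (m : F) ^ t * x ^ (2 * t) + (m : F) ^ (2 * t)

/-- every recursively enumerable set of tuples of integers is Diophantine over all `R`, `R'` -/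
def FormX (p : ℕ) (ok : Set ℚ → Prop) : Prop :=
  ∀ (k : ℕ) (S : Set (Fin k → ℤ)), REPred (fun a => a ∈ S) →
    ∃ (m r : ℕ) (F : MvPolynomial (Fin k ⊕ Fin m ⊕ Fin r) ℤ), ∀ R R' : Set ℚ,
      (∀ (z : ℤ) (j : ℕ), (z : ℚ) / (p : ℚ) ^ j ∈ R) → ok R → (∀ z : ℤ, (z : ℚ) ∈ R') →
      ∀ x : Fin k → ℚ, ((∃ a ∈ S, ∀ i, x i = a i) ↔
        ∃ (u : Fin m → ℚ) (y : Fin r → ℚ), (∀ i, u i ∈ R) ∧ (∀ j, y j ∈ R') ∧
          aeval (Sum.elim x (Sum.elim u y)) F = 0)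

variable {K : Type} [Field K] [Algebra ℚ K] (D : RD K)

namespace RD

/-- soundness of the common prime predicate, with denominators -/
def Cpk2 : Prop := ∀ L, D.CPK L → ∃ q, D.Good q ∧ ∃ Q : Ideal D.O, Q.IsPrime ∧ (q : D.O) ∈ Q ∧
  ∀ X ∈ L, ∀ s : ℕ, ¬ q ∣ s → ∀ y : D.O, (y : K) = s * X → y ∈ Q

/-- size of the powers of `α` -/
def Grow : Prop := ∃ A : ℕ, ∀ (J : ℕ) (i : Fin D.n), ∃ (z : ℤ) (l : ℕ),
  D.b.repr (D.α ^ J - 1) i = (z : ℚ) / (D.p : ℚ) ^ l ∧ |z| ≤ (A : ℤ) ^ (J + 1)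

/-- divisibility of `α ^ J - 1` -/
def Divi : Prop := ∀ M : ℕ, 0 < M → ¬ D.p ∣ M → ∃ L : ℕ, 0 < L ∧ ∀ J : ℕ, L ∣ J →
  ∀ i : Fin D.n, ∃ (z : ℤ) (l : ℕ), D.b.repr (D.α ^ J - 1) i = (M : ℚ) * z / (D.p : ℚ) ^ l

/-- the height bound for the form `psi m t`, with a class of rational numbers -/
def HtB (okv : ℚ → Prop) (m t C : ℕ) : Prop := ∀ v x Y : ℚ, okv v → v * psi m t x = Y → Y ≠ 0 →
  x.num.natAbs ≤ C * Y.num.natAbs ∧ x.den ≤ C * Y.num.natAbs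

/-- the number coded by a point -/
def dq (κ : ℕ) (z : ℕ → K) (j : ℕ) : K :=
  (D.Bt (z (κ + 2 + j)) ^ 2 - 1) / ((D.Bt (z κ) ^ 2) ^ D.p - 1)

/-- the entries of the common prime predicate -/
noncomputable def entsX {M : ℕ} (P : MvPolynomial (Fin M) ℤ) (κ k : ℕ) (a : ℕ → K)
    (z : ℕ → K) : List K :=
  [D.kap (z κ), aeval (fun j : Fin M => D.dq κ z j) P] ++
  ((List.range M).map (fun j => D.Bt (z (κ + 2 + j)) ^ 2 - 1) ++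
  (List.range k).map (fun i => a i - (D.dq κ z i - D.dq κ z (k + i))))

/-- the reading formula with inputs `a` -/
def ReadX {M : ℕ} (P : MvPolynomial (Fin M) ℤ) (κ c₀ k : ℕ) (a t z s x : ℕ → K) : Prop :=
  (∀ i < κ + 2 + M, D.Mem (t i) (z i)) ∧
  (∀ i < κ + 2, D.Mem (s i) (x i) ∧ z i = D.α * x i ^ (D.p ^ D.u0 - 1)) ∧
  (∀ i < κ + 2, D.Ord (z i / D.α ^ D.p ^ D.e) ∧ D.T (D.tq (z i) / tauQ D.β (D.p ^ D.e))) ∧
  (∀ i < κ, D.Ord (z (i + 1) / (D.α * z i)) ∧ D.ProdT (z i) (z i) (z (i + 1))) ∧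
  (D.Ord (z (κ + 1) / (D.α * z κ)) ∧ D.ProdT (z κ) (z 0) (z (κ + 1))) ∧
  D.Ord (z 0 / D.α ^ c₀) ∧
  (∀ j < M, D.Ord (z (κ + 2 + j)) ∧ D.Ord (z (κ + 1) ^ D.p / z (κ + 2 + j))) ∧
  D.CPK (D.entsX P κ k a z)

/-- soundness of the reading formula (statement) -/
def ReadXSound : Prop := ∀ {M : ℕ} (P : MvPolynomial (Fin M) ℤ) {C d κ c₀ k : ℕ},
    (∀ g : ℕ, 1 ≤ g → ∀ v : Fin M → ℤ, (∀ i, |v i| ≤ g) → |eval v P| ≤ C * g ^ d) →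
    2 ≤ d → D.n * (d + 1) ≤ 2 ^ κ → C + 3 ≤ c₀ → k + k ≤ M →
    ∀ (a : ℕ → ℚ) (t z s x : ℕ → K), (∀ i < κ + 2 + M, D.Adm (t i)) → (∀ i < κ + 2, D.Adm (s i)) →
    D.ReadX P κ c₀ k (fun i => algebraMap ℚ K (a i)) t z s x →
    ∃ (W : ℕ) (X : ℕ → ℕ), D.u0 ∣ W ∧ D.e ≤ W ∧ z κ = D.α ^ ((D.p ^ W : ℕ) : ℤ) ∧
      (∀ j < M, z (κ + 2 + j) = D.α ^ ((D.p ^ (W + 1) * X j : ℕ) : ℤ)) ∧
      eval (fun j : Fin M => (X j : ℤ)) P = 0 ∧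
      ∀ j < M, (∀ i < k, (a i).num.natAbs ≤ X j ∧ (a i).den ≤ X j) →
        ∀ i < k, a i = (X i : ℚ) - X (k + i)

/-- completeness of the reading formula (statement) -/
def ReadXComplete : Prop := ∀ {M : ℕ} (P : MvPolynomial (Fin M) ℤ) (κ c₀ k : ℕ) (X : ℕ → ℕ),
    k + k ≤ M → eval (fun j : Fin M => (X j : ℤ)) P = 0 →
    ∃ (W : ℕ) (E J : ℕ → ℕ), D.u0 ∣ W ∧ D.e ≤ W ∧ E κ = D.p ^ W ∧
      (∀ j < M, E (κ + 2 + j) = D.p ^ (W + 1) * X j) ∧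
      ∀ t s : ℕ → K, (∀ i < κ + 2 + M, D.Mem (t i) (D.α ^ (E i : ℤ))) →
      (∀ i < κ + 2, D.Mem (s i) (D.α ^ (J i : ℤ))) →
      D.ReadX P κ c₀ k (fun i => algebraMap ℚ K ((X i : ℚ) - X (k + i))) t
        (fun i => D.α ^ (E i : ℤ)) s (fun i => D.α ^ (J i : ℤ))

end RD

end Vale.Agent.P027.T3
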